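import Vale.Agent.P354k.Bound2

set_option linter.unusedSectionVars false
set_option maxSynthPendingDepth 3

open MeasureTheory Set Filter Topology
open scoped ContDiff

namespace Vale.Agent.P354k

section

variable {E : Type*} [NormedAddCommGroup E] [NormedSpace ℝ E] [FiniteDimensional ℝ E]
  [MeasureSpace E] [BorelSpace E] [(volume : Measure E).IsAddHaarMeasure]

lemma contDiff_ts {f : E → ℝ} (hg : ∀ y ∈ tsupport f, ContDiffAt ℝ 1 f y) :
    ContDiff ℝ 1 f := by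
  rw [contDiff_iff_contDiffAt]
  intro y
  by_cases hy : y ∈ tsupport f
  · exact hg y hy
  · have h1 : f =ᶠ[𝓝 y] fun _ => (0:ℝ) := notMem_tsupport_iff_eventuallyEq.mp hy
    exact contDiffAt_const.congr_of_eventuallyEq h1

/-- the integral of a derivative of a function with compact support -/
lemma int_fderiv_zero {f : E → ℝ} (hg : ContDiff ℝ 1 f) (hgc : HasCompactSupport f) (e : E) :
    Integrable (fun y => fderiv ℝ f y e) ∧ ∫ y, fderiv ℝ f y e = 0 := by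
  have c1 : Continuous (fun y => fderiv ℝ f y e) :=
    (hg.continuous_fderiv (by norm_num)).clm_apply continuous_const
  have i1 : Integrable (fun y => fderiv ℝ f y e) := by
    refine c1.integrable_of_hasCompactSupport ?_
    exact (hgc.fderiv (𝕜 := ℝ)).comp_left (g := fun L : E →L[ℝ] ℝ => L e) (by simp)
  have i2 : Integrable f := hg.continuous.integrable_of_hasCompactSupport hgc
  have h1 := integral_mul_fderiv_eq_neg_fderiv_mul_of_integrable (μ := (volume : Measure E))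
    (f := fun _ => (1:ℝ)) (g := f) (v := e) (by simp) (by simpa using i1) (by simpa using i2)
    (fun x _ => by fun_prop) (fun x _ => (hg.differentiable (by norm_num)) x)
  refine ⟨i1, ?_⟩
  simpa using h1

/-- integration by parts against a bounded function -/
lemma int_parts {D : Set E} (hD : IsOpen D) {t : E → ℝ} (ht : ContDiffOn ℝ ∞ t D) {A : ℝ}
    (hA : ∀ y ∈ D, |t y| ≤ A) {φ : E → ℝ} (hφ : ContDiff ℝ 1 φ) (hφc : HasCompactSupport φ)
    (hφD : tsupport φ ⊆ D) (e : E) :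
    Integrable (fun y => φ y * fderiv ℝ t y e) ∧
      |∫ y, φ y * fderiv ℝ t y e| ≤ A * ∫ y, |fderiv ℝ φ y e| := by
  have hts : tsupport (fun y => φ y * t y) ⊆ tsupport φ := by
    refine closure_mono fun y hy h0 => hy ?_
    simp only
    rw [h0, zero_mul]
  have hu : ContDiff ℝ 1 (fun y => φ y * t y) := contDiff_ts fun y hy =>
    (hφ.contDiffAt).mul ((ht.contDiffAt (hD.mem_nhds (hφD (hts hy)))).of_le (by norm_cast))
  have huc : HasCompactSupport (fun y => φ y * t y) := hφc.mul_right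
  obtain ⟨i1, i2⟩ := int_fderiv_zero hu huc e
  have hd : ∀ y, fderiv ℝ (fun y => φ y * t y) y e = φ y * fderiv ℝ t y e +
      fderiv ℝ φ y e * t y := by
    intro y
    by_cases hy : y ∈ tsupport φ
    · have h1 : DifferentiableAt ℝ t y := dAt hD ht (hφD hy)
      have h2 : DifferentiableAt ℝ φ y := (hφ.differentiable (by norm_num)) y
      rw [fderiv_fun_mul h2 h1]
      simp
      ring
    · have h1 : φ =ᶠ[𝓝 y] fun _ => (0:ℝ) := notMem_tsupport_iff_eventuallyEq.mp hy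
      have h2 : (fun y => φ y * t y) =ᶠ[𝓝 y] fun _ => (0:ℝ) := by
        filter_upwards [h1] with x hx
        rw [hx, zero_mul]
      rw [h2.fderiv_eq, h1.fderiv_eq, h1.eq_of_nhds]
      simp
  -- the second function is integrable
  have c2 : Continuous (fun y => fderiv ℝ φ y e * t y) := by
    apply continuous_of_tsupport
    intro y hy
    have h1 : tsupport (fun y => fderiv ℝ φ y e * t y) ⊆ tsupport φ := by
      refine (closure_mono (?_ : _ ⊆ Function.support fun y => fderiv ℝ φ y e)).trans ?_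
      · intro y hy h0
        apply hy
        have h1 : fderiv ℝ φ y e = 0 := h0
        simp only
        rw [h1, zero_mul]
      · have h3 : tsupport (fun y => fderiv ℝ φ y e) ⊆ tsupport (fderiv ℝ φ) := by
          refine closure_mono fun y hy h0 => hy ?_
          simp only
          rw [h0]; simp
        exact h3.trans (tsupport_fderiv_subset ℝ)
    have h2 : ContinuousAt t y :=
      (ht.continuousOn).continuousAt (hD.mem_nhds (hφD (h1 hy)))
    exact ((((hφ.continuous_fderiv (by norm_num)).clm_apply continuous_const)).continuousAt).mul h2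
  have hφ'c : HasCompactSupport (fun y => fderiv ℝ φ y e) :=
    (hφc.fderiv (𝕜 := ℝ)).comp_left (g := fun L : E →L[ℝ] ℝ => L e) (by simp)
  have i3 : Integrable (fun y => fderiv ℝ φ y e * t y) :=
    c2.integrable_of_hasCompactSupport hφ'c.mul_right
  have i4 : Integrable (fun y => φ y * fderiv ℝ t y e) := by
    have := i1.sub i3
    refine this.congr (Filter.Eventually.of_forall fun y => ?_)
    simp only [Pi.sub_apply]
    rw [hd y]
    ring
  refine ⟨i4, ?_⟩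
  have e1 : ∫ y, φ y * fderiv ℝ t y e = - ∫ y, fderiv ℝ φ y e * t y := by
    have h2 : ∫ y, fderiv ℝ (fun y => φ y * t y) y e = ∫ y, (φ y * fderiv ℝ t y e +
      fderiv ℝ φ y e * t y) := integral_congr_ae (Filter.Eventually.of_forall hd)
    rw [i2, integral_add i4 i3] at h2
    linarith
  rw [e1, abs_neg, ← Real.norm_eq_abs, ← integral_const_mul]
  have i5 : Integrable (fun y => |fderiv ℝ φ y e|) :=
    ((((hφ.continuous_fderiv (by norm_num)).clm_apply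
      continuous_const)).integrable_of_hasCompactSupport hφ'c).abs
  refine norm_integral_le_of_norm_le (i5.const_mul _) (Filter.Eventually.of_forall fun y => ?_)
  rw [Real.norm_eq_abs, abs_mul]
  by_cases hy : y ∈ tsupport φ
  · have h1 := hA y (hφD hy)
    rw [mul_comm A]
    gcongr
  · have h1 : φ =ᶠ[𝓝 y] fun _ => (0:ℝ) := notMem_tsupport_iff_eventuallyEq.mp hy
    rw [h1.fderiv_eq]
    simp

lemma int_norm {φ : E → ℝ} (hφ : ContDiff ℝ 1 φ) (hφc : HasCompactSupport φ) :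
    Integrable (fun y => ‖fderiv ℝ φ y‖) :=
  ((hφ.continuous_fderiv (by norm_num)).norm).integrable_of_hasCompactSupport
      (hφc.fderiv (𝕜 := ℝ)).norm

/-- integration by parts with a variable coefficient -/
lemma int_parts_s {D : Set E} (hD : IsOpen D) {t : E → ℝ} (ht : ContDiffOn ℝ ∞ t D) {A B : ℝ}
    (hA0 : 0 ≤ A)
    (hA : ∀ y ∈ D, |t y| ≤ A) {σ : E → ℝ} (hs : ContDiffOn ℝ ∞ σ D) {w : E}
    (hB : ∀ y ∈ D, |σ y| ≤ B) (hd : ∀ y ∈ D, |fderiv ℝ σ y w| ≤ B) {φ : E → ℝ}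
    (hφ : ContDiff ℝ 1 φ) (hφc : HasCompactSupport φ)
    (hφD : tsupport φ ⊆ D) :
    Integrable (fun y => φ y * (σ y * fderiv ℝ t y w)) ∧
      |∫ y, φ y * (σ y * fderiv ℝ t y w)| ≤
        A * (|B| * (1 + ‖w‖)) * ((∫ y, |φ y|) + ∫ y, ‖fderiv ℝ φ y‖) := by
  have hts : tsupport (fun y => φ y * σ y) ⊆ tsupport φ := by
    refine closure_mono fun y hy h0 => hy ?_
    simp only
    rw [h0, zero_mul]
  have hu : ContDiff ℝ 1 (fun y => φ y * σ y) := contDiff_ts fun y hy =>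
    (hφ.contDiffAt).mul ((hs.contDiffAt (hD.mem_nhds (hφD (hts hy)))).of_le (by norm_cast))
  have huc : HasCompactSupport (fun y => φ y * σ y) := hφc.mul_right
  obtain ⟨j1, j2⟩ := int_parts hD ht hA hu huc (hts.trans hφD) w
  have e1 : (fun y => φ y * (σ y * fderiv ℝ t y w)) = fun y => φ y * σ y * fderiv ℝ t y w := by
    funext y; ring
  rw [e1]
  refine ⟨j1, j2.trans ?_⟩
  have i1 : Integrable (fun y => |φ y|) := (hφ.continuous.integrable_of_hasCompactSupport hφc).abs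
  have i2 := int_norm hφ hφc
  have hpt : ∀ y, |fderiv ℝ (fun y => φ y * σ y) y w| ≤
      |B| * (1 + ‖w‖) * (|φ y| + ‖fderiv ℝ φ y‖) := by
    intro y
    have hw := norm_nonneg w
    have hB0 := abs_nonneg B
    by_cases hy : y ∈ tsupport φ
    · have h1 : DifferentiableAt ℝ σ y := dAt hD hs (hφD hy)
      have h2 : DifferentiableAt ℝ φ y := (hφ.differentiable (by norm_num)) y
      rw [fderiv_fun_mul h2 h1]
      simp only [_root_.add_apply, _root_.smul_apply, smul_eq_mul]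
      have k1 := (hB y (hφD hy)).trans (le_abs_self B)
      have k2 := (hd y (hφD hy)).trans (le_abs_self B)
      have k3 := (fderiv ℝ φ y).le_opNorm w
      rw [Real.norm_eq_abs] at k3
      have m1 : |φ y * fderiv ℝ σ y w| ≤ |φ y| * |B| := by rw [abs_mul]; gcongr
      have m2 : |σ y * fderiv ℝ φ y w| ≤ |B| * (‖fderiv ℝ φ y‖ * ‖w‖) := by
        rw [abs_mul]; gcongr
      refine (abs_add_le _ _).trans ((add_le_add m1 m2).trans ?_)
      have q1 : 0 ≤ |B| * ‖w‖ * |φ y| := by positivity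
      have q2 : 0 ≤ |B| * ‖fderiv ℝ φ y‖ := by positivity
      linarith only [q1, q2]
    · have h1 : φ =ᶠ[𝓝 y] fun _ => (0:ℝ) := notMem_tsupport_iff_eventuallyEq.mp hy
      have h2 : (fun y => φ y * σ y) =ᶠ[𝓝 y] fun _ => (0:ℝ) := by
        filter_upwards [h1] with x hx
        rw [hx, zero_mul]
      rw [h2.fderiv_eq]
      simp only [fderiv_fun_const, Pi.zero_apply, _root_.zero_apply, abs_zero]
      positivity
  have i3 : Integrable (fun y => |fderiv ℝ (fun y => φ y * σ y) y w|) :=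
    ((((hu.continuous_fderiv (by norm_num)).clm_apply
      continuous_const)).integrable_of_hasCompactSupport
      ((huc.fderiv (𝕜 := ℝ)).comp_left (g := fun L : E →L[ℝ] ℝ => L w) (by simp))).abs
  have h5 : ∫ y, |fderiv ℝ (fun y => φ y * σ y) y w| ≤
      |B| * (1 + ‖w‖) * ((∫ y, |φ y|) + ∫ y, ‖fderiv ℝ φ y‖) := by
    rw [← integral_add i1 i2, ← integral_const_mul]
    exact integral_mono i3 ((i1.add i2).const_mul _) hpt
  calc A * ∫ y, |fderiv ℝ (fun y => φ y * σ y) y w| ≤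
      A * (|B| * (1 + ‖w‖) * ((∫ y, |φ y|) + ∫ y, ‖fderiv ℝ φ y‖)) := by gcongr
    _ = _ := by ring

/-- integration by parts along a frame vector -/
lemma int_frame {D : Set E} (hD : IsOpen D) {t : E → ℝ} (ht : ContDiffOn ℝ ∞ t D) {A B : ℝ}
    (hA0 : 0 ≤ A) (hA : ∀ y ∈ D, |t y| ≤ A) {σ1 σ2 : E → ℝ} (hs1 : ContDiffOn ℝ ∞ σ1 D)
    (hs2 : ContDiffOn ℝ ∞ σ2 D) (ℓ : E →L[ℝ] ℝ) (w1 w2 : E)
    (hB1 : ∀ y ∈ D, |σ1 y| ≤ B) (hd1 : ∀ y ∈ D, |fderiv ℝ σ1 y w1| ≤ B)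
    (hB2 : ∀ y ∈ D, |σ2 y| ≤ B) (hd2 : ∀ y ∈ D, |fderiv ℝ σ2 y w2| ≤ B) (a : E) :
    ∃ L : ℝ, 0 ≤ L ∧ ∀ φ : E → ℝ, ContDiff ℝ 1 φ → HasCompactSupport φ → tsupport φ ⊆ D →
      Integrable (fun y => φ y * fderiv ℝ t y (Ev σ1 σ2 ℓ w1 w2 y a)) ∧
      |∫ y, φ y * fderiv ℝ t y (Ev σ1 σ2 ℓ w1 w2 y a)| ≤
        L * ((∫ y, |φ y|) + ∫ y, ‖fderiv ℝ φ y‖) := by
  refine ⟨A * ‖a‖ + |ℓ a| * (A * (|B| * (1 + ‖w1‖))) + |ℓ a| * (A * (|B| * (1 + ‖w2‖))),
    by positivity, fun φ hφ hφc hφD => ?_⟩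
  obtain ⟨j0, k0⟩ := int_parts hD ht hA hφ hφc hφD a
  obtain ⟨j1, k1⟩ := int_parts_s hD ht hA0 hA hs1 hB1 hd1 hφ hφc hφD
  obtain ⟨j2, k2⟩ := int_parts_s hD ht hA0 hA hs2 hB2 hd2 hφ hφc hφD
  have i1 : Integrable (fun y => |φ y|) := (hφ.continuous.integrable_of_hasCompactSupport hφc).abs
  have i2 := int_norm hφ hφc
  have e1 : (fun y => φ y * fderiv ℝ t y (Ev σ1 σ2 ℓ w1 w2 y a)) = fun y =>
      (φ y * fderiv ℝ t y a + ℓ a * (φ y * (σ1 y * fderiv ℝ t y w1))) +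
        ℓ a * (φ y * (σ2 y * fderiv ℝ t y w2)) := by
    funext y
    unfold Ev
    rw [map_add, map_add, map_smul, map_smul, smul_eq_mul, smul_eq_mul]
    ring
  rw [e1]
  have j3 : Integrable (fun y => φ y * fderiv ℝ t y a +
    ℓ a * (φ y * (σ1 y * fderiv ℝ t y w1))) := j0.add (j1.const_mul _)
  have j4 : Integrable (fun y => ℓ a * (φ y * (σ2 y * fderiv ℝ t y w2))) := j2.const_mul _
  refine ⟨j3.add j4, ?_⟩
  rw [integral_add j3 j4, integral_add j0 (j1.const_mul _), integral_const_mul,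
    integral_const_mul]
  have h0 : |∫ y, φ y * fderiv ℝ t y a| ≤ A * ‖a‖ * ((∫ y, |φ y|) + ∫ y, ‖fderiv ℝ φ y‖) := by
    refine k0.trans ?_
    have h1 : ∫ y, |fderiv ℝ φ y a| ≤ ‖a‖ * ∫ y, ‖fderiv ℝ φ y‖ := by
      rw [← integral_const_mul]
      refine integral_mono ?_ (i2.const_mul _) fun y => ?_
      · exact ((((hφ.continuous_fderiv (by norm_num)).clm_apply
          continuous_const)).integrable_of_hasCompactSupport
          ((hφc.fderiv (𝕜 := ℝ)).comp_left (g := fun L : E →L[ℝ] ℝ => L a) (by simp))).abs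
      · have := (fderiv ℝ φ y).le_opNorm a
        rw [Real.norm_eq_abs] at this
        simp only
        rw [mul_comm ‖a‖]
        exact this
    have h2 : 0 ≤ ∫ y, |φ y| := integral_nonneg fun _ => abs_nonneg _
    calc A * ∫ y, |fderiv ℝ φ y a| ≤ A * (‖a‖ * ∫ y, ‖fderiv ℝ φ y‖) := by gcongr
      _ ≤ A * (‖a‖ * ((∫ y, |φ y|) + ∫ y, ‖fderiv ℝ φ y‖)) := by gcongr; linarith
      _ = _ := by ring
  refine (abs_add_three _ _ _).trans ?_
  rw [abs_mul, abs_mul, add_mul, add_mul]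
  refine add_le_add (add_le_add h0 ?_) ?_
  · rw [mul_assoc |ℓ a|]
    exact mul_le_mul_of_nonneg_left k1 (abs_nonneg _)
  · rw [mul_assoc |ℓ a|]
    exact mul_le_mul_of_nonneg_left k2 (abs_nonneg _)

/-- **The curvature in the frame is bounded as a distribution of first order.** -/
theorem FHyp.int_le {E' : Type*} [NormedAddCommGroup E'] [NormedSpace ℝ E']
    {g : E → E → E → ℝ} {F : E → E'} {H : E → E' →L[ℝ] E' →L[ℝ] ℝ} {D : Set E}
    {B : ℝ} {kap : E → ℝ} {σ1 σ2 : E → ℝ} {ℓ : E →L[ℝ] ℝ} {w1 w2 : E} {Γ : E → E → E → E}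
    (h : FHyp g F H D B kap σ1 σ2 ℓ w1 w2)
    (hΓ : ∀ y ∈ D, Conn g Γ y) (a b c d : E) :
    ∃ L : ℝ, 0 ≤ L ∧ ∀ φ : E → ℝ, ContDiff ℝ 1 φ → HasCompactSupport φ → tsupport φ ⊆ D →
      Integrable (fun y => kap y * |φ y|) →
      |∫ y, φ y * Riem g Γ y (Ev σ1 σ2 ℓ w1 w2 y a) (Ev σ1 σ2 ℓ w1 w2 y b)
        (Ev σ1 σ2 ℓ w1 w2 y c) (Ev σ1 σ2 ℓ w1 w2 y d)| ≤
        L * ∫ y, (kap y * |φ y| + ‖fderiv ℝ φ y‖) := by
  have hB := h.one_le
  have hB0 : 0 ≤ B := by linarith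
  have hsm := fun a => smooth_Ev h.sm1 h.sm2 ℓ w1 w2 a
  set t1 := fun y => TT F H (Ev σ1 σ2 ℓ w1 w2 y b) (Ev σ1 σ2 ℓ w1 w2 y c)
        (Ev σ1 σ2 ℓ w1 w2 y d) y with ht1
  set t2 := fun y => TT F H (Ev σ1 σ2 ℓ w1 w2 y a) (Ev σ1 σ2 ℓ w1 w2 y c)
        (Ev σ1 σ2 ℓ w1 w2 y d) y with ht2
  have hst1 : ContDiffOn ℝ ∞ t1 D := smooth_TF h.openD h.smF h.smH (hsm b) (hsm c) (hsm d)
  have hst2 : ContDiffOn ℝ ∞ t2 D := smooth_TF h.openD h.smF h.smH (hsm a) (hsm c) (hsm d)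
  have hbd : ∀ b c d : E, ∀ y ∈ D, |TT F H (Ev σ1 σ2 ℓ w1 w2 y b) (Ev σ1 σ2 ℓ w1 w2 y c)
        (Ev σ1 σ2 ℓ w1 w2 y d) y| ≤ 2 * B ^ 3 * ((B * ‖b‖) * (B * ‖c‖) * (B * ‖d‖)) := by
    intro b c d y hy
    refine (h.TT_le hy _ _ _).trans ?_
    gcongr
    · exact h.hE y hy b
    · exact h.hE y hy c
    · exact h.hE y hy d
  obtain ⟨L1, hL10, hL1⟩ := int_frame h.openD hst1 (by positivity) (hbd b c d) h.sm1 h.sm2 ℓ w1 w2
    h.b1 h.d1 h.b2 h.d2 a
  obtain ⟨L2, hL20, hL2⟩ := int_frame h.openD hst2 (by positivity) (hbd a c d) h.sm1 h.sm2 ℓ w1 w2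
    h.b1 h.d1 h.b2 h.d2 b
  set n3 : ℝ := ‖a‖ * ‖b‖ * ‖c‖ * ‖d‖ with hn3
  refine ⟨L1 + L2 + 50 * B ^ 15 * n3, by positivity, fun φ hφ hφc hφD hi => ?_⟩
  obtain ⟨j1, k1⟩ := hL1 φ hφ hφc hφD
  obtain ⟨j2, k2⟩ := hL2 φ hφ hφc hφD
  have i5 := int_norm hφ hφc
  have i6 : Integrable (fun y => |φ y|) := (hφ.continuous.integrable_of_hasCompactSupport hφc).abs
  have hnn : 0 ≤ ∫ y, ‖fderiv ℝ φ y‖ := integral_nonneg fun _ => norm_nonneg _
  have hkn : ∀ y, |φ y| ≤ kap y * |φ y| := by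
    intro y
    by_cases hy : y ∈ tsupport φ
    · have h1 := h.kap_one y (hφD hy)
      have h2 := abs_nonneg (φ y)
      nlinarith
    · have h1 : φ y = 0 := image_eq_zero_of_notMem_tsupport hy
      rw [h1]; simp
  have hle : ∫ y, |φ y| ≤ ∫ y, kap y * |φ y| := integral_mono i6 hi hkn
  have h0 : 0 ≤ ∫ y, |φ y| := integral_nonneg fun _ => abs_nonneg _
  rw [integral_add hi i5]
  set R := fun y => Riem g Γ y (Ev σ1 σ2 ℓ w1 w2 y a) (Ev σ1 σ2 ℓ w1 w2 y b)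
        (Ev σ1 σ2 ℓ w1 w2 y c) (Ev σ1 σ2 ℓ w1 w2 y d) with hR
  have hq : ∀ y, ‖φ y * R y - (φ y * fderiv ℝ t1 y (Ev σ1 σ2 ℓ w1 w2 y a) -
      φ y * fderiv ℝ t2 y (Ev σ1 σ2 ℓ w1 w2 y b))‖ ≤ 50 * B ^ 15 * n3 * (kap y * |φ y|) := by
    intro y
    have e1 : φ y * R y - (φ y * fderiv ℝ t1 y (Ev σ1 σ2 ℓ w1 w2 y a) -
      φ y * fderiv ℝ t2 y (Ev σ1 σ2 ℓ w1 w2 y b)) = φ y * (R y -
        (fderiv ℝ t1 y (Ev σ1 σ2 ℓ w1 w2 y a) - fderiv ℝ t2 y (Ev σ1 σ2 ℓ w1 w2 y b))) := by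
      ring
    rw [e1, Real.norm_eq_abs, abs_mul]
    by_cases hy : y ∈ tsupport φ
    · have h1 := h.QF_le hΓ (hφD hy) a b c d
      calc _ ≤ |φ y| * (50 * B ^ 15 * n3 * kap y) := by gcongr
        _ = _ := by ring
    · have h1 : φ y = 0 := image_eq_zero_of_notMem_tsupport hy
      rw [h1]; simp
  by_cases hint : Integrable (fun y => φ y * R y)
  · have h3 := norm_integral_le_of_norm_le (hi.const_mul (50 * B ^ 15 * n3))
      (Filter.Eventually.of_forall hq)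
    have j3 : Integrable (fun y => φ y * fderiv ℝ t1 y (Ev σ1 σ2 ℓ w1 w2 y a) -
      φ y * fderiv ℝ t2 y (Ev σ1 σ2 ℓ w1 w2 y b)) := j1.sub j2
    rw [integral_sub hint j3, integral_sub j1 j2, integral_const_mul,
      Real.norm_eq_abs] at h3
    set I := ∫ y, φ y * R y with hI
    set I1 := ∫ y, φ y * fderiv ℝ t1 y (Ev σ1 σ2 ℓ w1 w2 y a) with hI1
    set I2 := ∫ y, φ y * fderiv ℝ t2 y (Ev σ1 σ2 ℓ w1 w2 y b) with hI2
    have h4 : |I| ≤ |I - (I1 - I2)| + (|I1| + |I2|) := by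
      have e2 : I = (I - (I1 - I2)) + (I1 - I2) := by ring
      calc |I| = |(I - (I1 - I2)) + (I1 - I2)| := by rw [← e2]
        _ ≤ _ := (abs_add_le _ _).trans (add_le_add le_rfl (abs_sub _ _))
    have k1' : |I1| ≤ L1 * ((∫ y, kap y * |φ y|) + ∫ y, ‖fderiv ℝ φ y‖) := by
      refine k1.trans ?_
      gcongr
    have k2' : |I2| ≤ L2 * ((∫ y, kap y * |φ y|) + ∫ y, ‖fderiv ℝ φ y‖) := by
      refine k2.trans ?_
      gcongr
    have p3 : 0 ≤ 50 * B ^ 15 * n3 := by positivity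
    have q3 : 50 * B ^ 15 * n3 * (∫ y, kap y * |φ y|) ≤
        50 * B ^ 15 * n3 * ((∫ y, kap y * |φ y|) + ∫ y, ‖fderiv ℝ φ y‖) := by
      gcongr
      linarith
    rw [add_mul, add_mul]
    linarith
  · rw [integral_undef hint, abs_zero]
    have : 0 ≤ ∫ y, kap y * |φ y| := h0.trans hle
    positivity

end

end Vale.Agent.P354k
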