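import Vale.Agent.P354k.Pt
import Vale.Agent.P354k.Int2
import Vale.Agent.P354n.LipBound

set_option linter.unusedSectionVars false
set_option maxSynthPendingDepth 3

open scoped Manifold ContDiff
open MeasureTheory Set Topology Filter

namespace Vale.Agent.P354k

open Vale.Agent.P354p
open Vale.Agent.P354 (P4 P3 norm_P4_le MB NearM)
open Vale.Agent.P354x (ins QQ)

section

variable {M N : Spc} {ι : M.pt → N.pt} {h : IsOpenEmbedding ι} [Nonempty M.pt]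
  {e : M.Chart} {C : ℕ → R4 → ℝ} {z0 : R4} {r K : ℝ} {k : ℝ → ℝ} {p : N.pt} {e' : N.Chart}
  {A : R4 ≃L[ℝ] R4} {R0 Cc t0 r1 v0 : ℝ} {f : P3 → ℝ} {O : Set P354w.P3}

/-- the coordinates of the extension as functions of the coordinates of the box -/
noncomputable def FF (e : M.Chart) (e' : N.Chart) (ι : M.pt → N.pt) (h : IsOpenEmbedding ι)
    (y0 : R4) (A : R4 ≃L[ℝ] R4) (x : R4) : R4 := A.symm (theta e e' ι h x - y0)

/-- the metric of the extension as a function of the coordinates of the box -/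
noncomputable def HH (e : M.Chart) (e' : N.Chart) (ι : M.pt → N.pt) (h : IsOpenEmbedding ι)
    (y0 : R4) (A : R4 ≃L[ℝ] R4) (x : R4) : R4 →L[ℝ] R4 →L[ℝ] ℝ :=
  Gf (comp e') y0 A (FF e e' ι h y0 A x)

/-- the part of the box which is used -/
def Dm (O : Set P354w.P3) (v0 : ℝ) : Set R4 :=
  {x | (x.2.2.1, x.1, x.2.2.2) ∈ O ∧ v0 < x.2.1 ∧ x.2.1 < 0}

lemma Dm_isOpen (hO : IsOpen O) (v0 : ℝ) : IsOpen (Dm O v0) := by
  have h1 : IsOpen ((fun x : R4 => ((x.2.2.1, x.1, x.2.2.2) : P354w.P3)) ⁻¹' O) :=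
    hO.preimage (by fun_prop)
  have h2 : IsOpen {x : R4 | v0 < x.2.1} := isOpen_lt continuous_const (by fun_prop)
  have h3 : IsOpen {x : R4 | x.2.1 < 0} := isOpen_lt (by fun_prop) continuous_const
  exact h1.inter (h2.inter h3)

lemma yv_FF (x : R4) (y0 : R4) : yv y0 A (FF e e' ι h y0 A x) = theta e e' ι h x := by
  unfold yv FF
  rw [ContinuousLinearEquiv.apply_symm_apply]
  abel

lemma mem_Dm (hF : FrontData ⊤ M N ι h e C z0 r K k p e' A R0 Cc t0 r1 f)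
    (hin : ∀ y ∈ O, ∀ v ∈ Ico v0 0,
      ∃ z ∈ P354w.DD t0 r1 f, PsiF e e' ι h (co e' p) A z = ins v y ∧ ‖z.2‖ ≤ r1 / 4)
    {x : R4} (hx : x ∈ Dm O v0) :
    x ∈ (theta e e' ι h).source ∧ FF e e' ι h (co e' p) A x ∈ P354w.DD t0 r1 f ∧
      PsiF e e' ι h (co e' p) A (FF e e' ι h (co e' p) A x) = Sp x ∧
      ‖(FF e e' ι h (co e' p) A x).2‖ ≤ r1 / 4 ∧ x ∈ nullBox z0 r := by
  obtain ⟨z, hz, hzx, hzn⟩ := hin _ hx.1 x.2.1 ⟨hx.2.1.le, hx.2.2⟩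
  have h1 : PsiF e e' ι h (co e' p) A z = Sp x := hzx
  have h2 : (theta e e' ι h).symm (yv (co e' p) A z) = x := Sp.injective h1
  have hV := hF.sub hz
  have h3 : yv (co e' p) A z ∈ (theta e e' ι h).target := hV.1.1
  have h4 : x ∈ (theta e e' ι h).source := by
    rw [← h2]; exact (theta e e' ι h).map_target h3
  have h5 : theta e e' ι h x = yv (co e' p) A z := by
    rw [← h2]; exact (theta e e' ι h).right_inv h3
  have h6 : FF e e' ι h (co e' p) A x = z := by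
    unfold FF
    rw [h5]
    unfold yv
    rw [add_sub_cancel_left, ContinuousLinearEquiv.symm_apply_apply]
  rw [h6]
  refine ⟨h4, hz, h1, hzn, ?_⟩
  have h7 := hF.core.maps hV
  rw [h1] at h7
  exact Sp_mem_MB.1 h7

lemma FF_smooth (hI : IsIsom ι) (y0 : R4) :
    ContDiffOn ℝ ∞ (FF e e' ι h y0 A) (theta e e' ι h).source :=
  A.symm.contDiff.comp_contDiffOn ((theta_contDiffOn (h := h) hI).sub contDiffOn_const)

lemma HH_smooth (hM : IsSpacetime IsSmooth M) {Reg : (R4 → ℝ) → Set R4 → Prop}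
    (hg' : IsSpacetime Reg N) (hI : IsIsom ι) (y0 : R4) :
    ContDiffOn ℝ ∞ (HH e e' ι h y0 A) (theta e e' ι h).source := by
  have h1 := Gf_contDiffOn (c := comp e')
    (fun i j => comp_contDiffOn_target (h := h) (e := e) (e' := e') hM hg' hI (bas i) (bas j)) y0 A
  refine h1.comp (FF_smooth hI y0) fun x hx => ?_
  show yv y0 A (FF e e' ι h y0 A x) ∈ (theta e e' ι h).target
  rw [yv_FF]
  exact (theta e e' ι h).map_source hx

lemma fderiv_FF (hI : IsIsom ι) (y0 : R4) {x : R4} (hx : x ∈ (theta e e' ι h).source) (a : R4) :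
    A (fderiv ℝ (FF e e' ι h y0 A) x a) = fderiv ℝ (theta e e' ι h) x a := by
  have h1 : HasFDerivAt (FF e e' ι h y0 A)
      ((A.symm : R4 →L[ℝ] R4).comp (fderiv ℝ (theta e e' ι h) x)) x :=
    A.symm.hasFDerivAt.comp x ((theta_hasFDerivAt hI hx).sub_const y0)
  rw [h1.fderiv]
  simp

lemma HH_iso {Reg : (R4 → ℝ) → Set R4 → Prop}
    (hg' : IsSpacetime Reg N) (hI : IsIsom ι) (y0 : R4) {x : R4}
    (hx : x ∈ (theta e e' ι h).source) (a b : R4) :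
    M.g e x a b = HH e e' ι h y0 A x (fderiv ℝ (FF e e' ι h y0 A) x a)
      (fderiv ℝ (FF e e' ι h y0 A) x b) := by
  have ht : theta e e' ι h x ∈ tgt e' := target_sub ((theta e e' ι h).map_source hx)
  unfold HH
  rw [Gf_apply (by rw [yv_FF]; exact hg'.bilin e' ht), yv_FF, fderiv_FF hI y0 hx,
    fderiv_FF hI y0 hx]
  exact theta_pull hI hx a b

/-- the derivative of the inverse map -/
lemma Psi_FF (hM : IsSpacetime IsSmooth M) {Reg : (R4 → ℝ) → Set R4 → Prop}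
    (hg' : IsSpacetime Reg N) (hI : IsIsom ι) (y0 : R4) {x : R4}
    (hx : x ∈ (theta e e' ι h).source) (a : R4) :
    fderiv ℝ (PsiF e e' ι h y0 A) (FF e e' ι h y0 A x)
      (fderiv ℝ (FF e e' ι h y0 A) x a) = Sp a := by
  have h1 : yv y0 A (FF e e' ι h y0 A x) ∈ (theta e e' ι h).target := by
    rw [yv_FF]; exact (theta e e' ι h).map_source hx
  have h2 := (Psi_hasFDerivAt (h := h) hM hg' hI y0 A h1).differentiableAt.hasFDerivAt
  have h3 : HasFDerivAt (FF e e' ι h y0 A) (fderiv ℝ (FF e e' ι h y0 A) x) x :=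
    (dAt (theta e e' ι h).open_source (FF_smooth hI y0) hx).hasFDerivAt
  have h4 := h2.comp x h3
  have h5 : HasFDerivAt (PsiF e e' ι h y0 A ∘ FF e e' ι h y0 A) (Sp : R4 →L[ℝ] R4) x := by
    refine Sp.hasFDerivAt.congr_of_eventuallyEq ?_
    filter_upwards [(theta e e' ι h).open_source.mem_nhds hx] with y hy
    show Sp ((theta e e' ι h).symm (yv y0 A (FF e e' ι h y0 A y))) = Sp y
    rw [yv_FF, (theta e e' ι h).left_inv hy]
  have := DFunLike.congr_fun (h4.unique h5) a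
  exact this

end

lemma near_norm {B : R4 →L[ℝ] R4 →L[ℝ] ℝ} (hB : NearM B) (a b : R4) :
    |B a b| ≤ 5 * (‖a‖ * ‖b‖) := by
  have h1 := hB a b
  obtain ⟨a1, a2, a3, a4⟩ := le4 (a := a)
  obtain ⟨b1, b2, b3, b4⟩ := le4 (a := b)
  have m1 : |a.1 * b.1| ≤ ‖a‖ * ‖b‖ := by rw [abs_mul]; gcongr
  have m2 : |a.2.1 * b.2.1| ≤ ‖a‖ * ‖b‖ := by rw [abs_mul]; gcongr
  have m3 : |a.2.2.1 * b.2.2.1| ≤ ‖a‖ * ‖b‖ := by rw [abs_mul]; gcongr
  have m4 : |a.2.2.2 * b.2.2.2| ≤ ‖a‖ * ‖b‖ := by rw [abs_mul]; gcongr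
  have hn : 0 ≤ ‖a‖ * ‖b‖ := by positivity
  have e1 : 1 / 100 * ‖a‖ * ‖b‖ = 1 / 100 * (‖a‖ * ‖b‖) := by ring
  rw [e1] at h1
  unfold P354.mink at h1
  rw [abs_le] at h1 m1 m2 m3 m4 ⊢
  constructor
  · linarith only [h1.1, m1.2, m2.1, m3.1, m4.1, hn]
  · linarith only [h1.2, m1.1, m2.2, m3.2, m4.2, hn]

lemma near_nondeg {B : R4 →L[ℝ] R4 →L[ℝ] ℝ} (hB : NearM B) (s : R4) :
    ∃ w : R4, ‖w‖ ≤ 1 ∧ ‖s‖ ≤ 2 * |B s w| := by
  by_cases hs : s = 0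
  · exact ⟨0, by simp, by simp [hs]⟩
  have hs0 : 0 < ‖s‖ := norm_pos_iff.2 hs
  set s' : R4 := (-s.1, s.2.1, s.2.2.1, s.2.2.2) with hs'
  have hn : ‖s'‖ ≤ ‖s‖ := by
    obtain ⟨a1, a2, a3, a4⟩ := le4 (a := s)
    rw [norm_P4_le]
    exact ⟨by simpa [hs'] using a1, a2, a3, a4⟩
  have h1 := hB s s'
  have h2 : P354.mink s s' = s.1 ^ 2 + s.2.1 ^ 2 + s.2.2.1 ^ 2 + s.2.2.2 ^ 2 := by
    unfold P354.mink
    rw [hs']
    simp only
    ring
  have h3 : ‖s‖ ^ 2 ≤ s.1 ^ 2 + s.2.1 ^ 2 + s.2.2.1 ^ 2 + s.2.2.2 ^ 2 := by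
    have h4 : ‖s‖ ≤ √(s.1 ^ 2 + s.2.1 ^ 2 + s.2.2.1 ^ 2 + s.2.2.2 ^ 2) := by
      rw [norm_P4_le]
      refine ⟨?_, ?_, ?_, ?_⟩ <;>
      · apply Real.abs_le_sqrt
        nlinarith only [sq_nonneg s.1, sq_nonneg s.2.1, sq_nonneg s.2.2.1, sq_nonneg s.2.2.2]
    calc ‖s‖ ^ 2 ≤ (√(s.1 ^ 2 + s.2.1 ^ 2 + s.2.2.1 ^ 2 + s.2.2.2 ^ 2)) ^ 2 := by gcongr
      _ = _ := Real.sq_sqrt (by positivity)
  have h5 : ‖s‖ ^ 2 ≤ 2 * B s s' := by
    have h6 : 1 / 100 * ‖s‖ * ‖s'‖ ≤ 1 / 100 * ‖s‖ ^ 2 := by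
      have : ‖s‖ * ‖s'‖ ≤ ‖s‖ * ‖s‖ := by gcongr
      nlinarith
    have h7 := (abs_le.1 h1).1
    rw [h2] at h7
    nlinarith [sq_nonneg ‖s‖]
  refine ⟨‖s‖⁻¹ • s', ?_, ?_⟩
  · rw [norm_smul, norm_inv, norm_norm]
    calc ‖s‖⁻¹ * ‖s'‖ ≤ ‖s‖⁻¹ * ‖s‖ := by gcongr
      _ = 1 := inv_mul_cancel₀ hs0.ne'
  · rw [map_smul, smul_eq_mul, abs_mul, abs_inv, abs_norm]
    have h6 : ‖s‖ ^ 2 ≤ 2 * |B s s'| := h5.trans (by gcongr; exact le_abs_self _)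
    calc ‖s‖ = ‖s‖⁻¹ * ‖s‖ ^ 2 := by field_simp
      _ ≤ ‖s‖⁻¹ * (2 * |B s s'|) := by gcongr
      _ = _ := by ring

section

variable {M : Spc} {e : M.Chart} {C : ℕ → R4 → ℝ} {z0 : R4} {r K : ℝ} {k : ℝ → ℝ}

/-- the bounds of the coefficients -/
lemma bddW (hB : FrontBox M e C z0 r K k) {x : R4} (hx : x ∈ nullBox z0 r) :
    Bdd (toW C) (Sp x) K K := by
  have h1 := hB.bounded hx
  have hK := h1.K_one
  have hb : ∀ i < 8, |C i (Sp.symm (Sp x))| ≤ K := fun i hi => by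
    rw [ContinuousLinearEquiv.symm_apply_apply]
    exact (h1.bound i hi).1
  exact ⟨hK, by linarith, hb 3 (by norm_num), hb 0 (by norm_num), hb 1 (by norm_num),
    hb 2 (by norm_num), hb 4 (by norm_num), hb 5 (by norm_num), hb 6 (by norm_num),
    hb 7 (by norm_num)⟩

end

end Vale.Agent.P354k
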