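import Vale.Agent.P354k.Kos
import Vale.Agent.P354n.Front2

set_option linter.unusedSectionVars false
set_option maxSynthPendingDepth 3

open scoped Manifold ContDiff
open MeasureTheory Set Topology Filter

namespace Vale.Agent.P354k

open Vale.Agent.P354p
open Vale.Agent.P354 (P4 P3 norm_P4_le MB NearM)
open Vale.Agent.P354x (ins QQ)

/-- the vector of the frame with constant components a -/
def fr (C : ℕ → R4 → ℝ) (x a : R4) : R4 :=
  (a.1, a.2.1, a.2.2.1 + C 4 x * a.2.1, a.2.2.2 + C 5 x * a.2.1)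

lemma fr_eq (C : ℕ → R4 → ℝ) (x a : R4) : fr C x a = ev C x a := by
  rw [ev_eq, fr, mul_comm (C 4 x), mul_comm (C 5 x)]

section

variable {M N : Spc} {ι : M.pt → N.pt} {h : IsOpenEmbedding ι} [Nonempty M.pt]
  {e : M.Chart} {C : ℕ → R4 → ℝ} {z0 : R4} {r K : ℝ} {k : ℝ → ℝ} {p : N.pt} {e' : N.Chart}
  {A : R4 ≃L[ℝ] R4} {R0 Cc t0 r1 v0 : ℝ} {f : P3 → ℝ} {O : Set P354w.P3}

lemma basis_norm (i : Fin 4) : ‖bas i‖ ≤ 1 := by
  fin_cases i <;> exact norm_P4_le.2 (by simp [bas])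

/-- The hypotheses of the curvature estimate hold if there is a Lipschitz extension. -/
theorem fhyp (hM : IsSpacetime IsSmooth M) (hg' : IsSpacetime (IsC0W1 ⊤) N) (hI : IsIsom ι)
    (hB : FrontBox M e C z0 r K k) (hF : FrontData ⊤ M N ι h e C z0 r K k p e' A R0 Cc t0 r1 f)
    (hO : IsOpen O) (hin : ∀ y ∈ O, ∀ v ∈ Ico v0 0,
      ∃ z ∈ P354w.DD t0 r1 f, PsiF e e' ι h (co e' p) A z = ins v y ∧ ‖z.2‖ ≤ r1 / 4) :
    ∃ B : ℝ, FHyp (M.g e) (FF e e' ι h (co e' p) A) (HH e e' ι h (co e' p) A) (Dm O v0) B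
      (fun y => 1 + k (cv y)) (C 4) (C 5) (crd 1) (bas 2) (bas 3) := by
  have hK := hB.K_one
  have hK0 : 0 ≤ K := by linarith
  obtain ⟨L, hL⟩ := lip_bound hM hg' hI hF
  obtain ⟨κ, hκ1, hκ⟩ := P354a.QQ_bdd hF.core hL
  have hCc : 1 ≤ Cc := by nlinarith [hF.Cc_large]
  have hCc0 : 0 ≤ Cc := by linarith
  set B1 : ℝ := 2 * Cc * (6 * Cc * (1 + 2 * K) ^ 2) * ((Cc + 2 * K + 1) * κ) with hB1
  have hB10 : 0 ≤ B1 := by positivity
  set B2 : ℝ := 3 * Cc * (1 + K) ^ 2 * (20 * B1) with hB2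
  have hB20 : 0 ≤ B2 := by positivity
  set B3 : ℝ := 153 * K ^ 2 * (1 + 2 * K) ^ 2 * (1 + K) ^ 2 with hB3
  have hB30 : 0 ≤ B3 := by positivity
  set B4 : ℝ := 12 * K * (1 + K) ^ 2 with hB4
  have hB40 : 0 ≤ B4 := by positivity
  have hLB : 0 ≤ |L| * B1 := by positivity
  obtain ⟨B, hB5, hBB1, hBB2, hBB3, hBB4, hBL, hBK⟩ : ∃ B : ℝ, 5 ≤ B ∧ B1 ≤ B ∧ B2 ≤ B ∧ B3 ≤ B ∧
      B4 ≤ B ∧ |L| * B1 ≤ B ∧ 1 + K ≤ B :=
    ⟨B1 + B2 + B3 + B4 + 5 + |L| * B1 + (1 + K), by linarith, by linarith, by linarith,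
      by linarith, by linarith, by linarith, by linarith⟩
  have hB0 : 0 ≤ B := by linarith
  have hsrc := fun {x : R4} (hx : x ∈ Dm O v0) => mem_Dm hF hin hx
  have hbox : ∀ x ∈ Dm O v0, x ∈ nullBox z0 r := fun x hx => (hsrc hx).2.2.2.2
  -- pointwise estimates
  have hpt : ∀ x ∈ Dm O v0, (∀ a, ‖fderiv ℝ (FF e e' ι h (co e' p) A) x a‖ ≤ B1 * ‖a‖) ∧
      (∀ w, ∃ d, fderiv ℝ (FF e e' ι h (co e' p) A) x d = w ∧ ‖d‖ ≤ B2 * ‖w‖) ∧
      NearM (HH e e' ι h (co e' p) A x) := by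
    intro x hx
    obtain ⟨hxs, hxD, hxP, hxn, hxb⟩ := hsrc hx
    set z : R4 := FF e e' ι h (co e' p) A x with hz
    have hzV := hF.sub hxD
    have hpre := hF.core.toPreHyp
    have hp := hpre.pt hzV
    have hbd := hpre.bd _ (hpre.maps hzV)
    have hbx := bddW hB hxb
    rw [← hxP] at hbx
    have hbdd : Bdd ((toW C).scale 4) (PsiF e e' ι h (co e' p) A z) Cc K := by
      refine ⟨hCc, hK0, ?_, hbd.g11, hbd.g12, hbd.g22, hbx.s1, hbx.s2, hbx.w1, hbx.w2⟩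
      rw [abs_of_pos hp.om_pos]
      exact hbd.om_hi
    have hball : z ∈ Metric.ball (0 : R4) R0 := by
      rw [mem_ball_zero_iff]
      have := hF.bound z hxD
      have := hF.R0_pos
      linarith
    have hnear := hF.near z hball
    have h1 : ∀ Z, ‖Z‖ ≤ B1 * ‖fderiv ℝ (PsiF e e' ι h (co e' p) A) z Z‖ := fun Z =>
      pre_norm hp hbdd hκ1 (hκ z hxD hxn) Z
    have h2 := deriv_norm hp hbdd hB10 (gn := 20) (by norm_num) (fun a b => by
      have := near_norm hnear a b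
      show |(4:ℝ) • (Gf (comp e') (co e' p) A z a b)| ≤ _
      rw [smul_eq_mul, abs_mul, abs_of_pos (by norm_num : (0:ℝ) < 4)]
      linarith) h1 (hpre.exists_pre hzV)
    refine ⟨fun a => ?_, fun w => ?_, hnear⟩
    · have h3 := h1 (fderiv ℝ (FF e e' ι h (co e' p) A) x a)
      rw [hz, Psi_FF hM hg' hI _ hxs, norm_Sp] at h3
      exact h3
    · refine ⟨Sp.symm (fderiv ℝ (PsiF e e' ι h (co e' p) A) z w), ?_, ?_⟩
      · apply hpre.deriv_inj hzV
        rw [hz, Psi_FF hM hg' hI _ hxs, ContinuousLinearEquiv.apply_symm_apply]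
      · have h4 := h2 w
        rw [← norm_Sp, ContinuousLinearEquiv.apply_symm_apply]
        exact h4
  refine ⟨B, {
    openD := Dm_isOpen hO v0
    smF := (FF_smooth hI _).mono fun x hx => (hsrc hx).1
    smH := (HH_smooth hM hg' hI _).mono fun x hx => (hsrc hx).1
    symm := ?_
    iso := fun x hx a b => HH_iso hg' hI _ (hsrc hx).1 a b
    one_le := by linarith
    hF := ?_
    hH := ?_
    hDH := ?_
    inv := ?_
    nondeg := ?_
    kap_one := ?_
    sm1 := (hB.dn.smooth 4).mono hbox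
    sm2 := (hB.dn.smooth 5).mono hbox
    b1 := fun x hx => (((hB.bounded (hbox x hx)).bound 4 (by norm_num)).1).trans (by linarith)
    b2 := fun x hx => (((hB.bounded (hbox x hx)).bound 5 (by norm_num)).1).trans (by linarith)
    d1 := ?_
    d2 := ?_
    hE := ?_
    comm := ?_
    kos := ?_ }⟩
  · intro x hx s w
    obtain ⟨hxs, -⟩ := hsrc hx
    have ht : theta e e' ι h x ∈ tgt e' := target_sub ((theta e e' ι h).map_source hxs)
    unfold HH
    rw [Gf_apply (by rw [yv_FF]; exact hg'.bilin e' ht),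
      Gf_apply (by rw [yv_FF]; exact hg'.bilin e' ht), yv_FF]
    exact hg'.symm e' ht _ _
  · intro x hx
    refine ContinuousLinearMap.opNorm_le_bound _ hB0 fun a => ?_
    refine ((hpt x hx).1 a).trans ?_
    gcongr
  · intro x hx
    refine ContinuousLinearMap.opNorm_le_bound₂ _ hB0 fun a b => ?_
    rw [Real.norm_eq_abs]
    refine (near_norm (hpt x hx).2.2 a b).trans ?_
    rw [mul_assoc]
    gcongr
  · intro x hx
    obtain ⟨hxs, hxD, hxP, hxn, hxb⟩ := hsrc hx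
    have ht : yv (co e' p) A (FF e e' ι h (co e' p) A x) ∈ (theta e e' ι h).target := by
      rw [yv_FF]; exact (theta e e' ι h).map_source hxs
    have hG : DifferentiableAt ℝ (Gf (comp e') (co e' p) A) (FF e e' ι h (co e' p) A x) :=
      diffG hM hg' hI _ _ ht
    have hFd : DifferentiableAt ℝ (FF e e' ι h (co e' p) A) x :=
      dAt (theta e e' ι h).open_source (FF_smooth hI _) hxs
    have h1 : fderiv ℝ (HH e e' ι h (co e' p) A) x =
        (fderiv ℝ (Gf (comp e') (co e' p) A) (FF e e' ι h (co e' p) A x)).comp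
          (fderiv ℝ (FF e e' ι h (co e' p) A) x) :=
      (hG.hasFDerivAt.comp x hFd.hasFDerivAt).fderiv
    have h2 := hL _ hxD
    have h3 : fderiv ℝ (fun z => (4:ℝ) • Gf (comp e') (co e' p) A z)
        (FF e e' ι h (co e' p) A x) =
        (4:ℝ) • fderiv ℝ (Gf (comp e') (co e' p) A) (FF e e' ι h (co e' p) A x) :=
      fderiv_fun_const_smul hG 4
    rw [h3, norm_smul] at h2
    have h4 : ‖fderiv ℝ (Gf (comp e') (co e' p) A) (FF e e' ι h (co e' p) A x)‖ ≤ |L| := by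
      have h5 := norm_nonneg (fderiv ℝ (Gf (comp e') (co e' p) A) (FF e e' ι h (co e' p) A x))
      have h6 : ‖(4:ℝ)‖ = 4 := by norm_num
      rw [h6] at h2
      linarith [le_abs_self L]
    have h5 : ‖fderiv ℝ (FF e e' ι h (co e' p) A) x‖ ≤ B1 :=
      ContinuousLinearMap.opNorm_le_bound _ hB10 (hpt x hx).1
    rw [h1]
    refine (ContinuousLinearMap.opNorm_comp_le _ _).trans ?_
    calc _ ≤ |L| * B1 := by gcongr
      _ ≤ B := hBL
  · intro x hx w
    obtain ⟨d, hd, hdn⟩ := (hpt x hx).2.1 w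
    exact ⟨d, hd, hdn.trans (by gcongr)⟩
  · intro x hx s
    obtain ⟨w, hw, hwn⟩ := near_nondeg (hpt x hx).2.2 s
    refine ⟨w, hw, hwn.trans ?_⟩
    gcongr
    linarith
  · intro x hx
    have : 0 ≤ k (cv x) :=
      (abs_nonneg _).trans ((hB.bounded (hbox x hx)).deriv_vu 0 (by norm_num)).1
    linarith
  · intro x hx
    have hd := hB.diff (hbox x hx) 4
    rw [← deriv_eq hd]
    refine (((hB.bounded (hbox x hx)).bound 4 (by norm_num)).2 (bas 2) rfl rfl).trans ?_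
    have := basis_norm 2
    calc K * ‖bas 2‖ ≤ K * 1 := by gcongr
      _ ≤ B := by linarith
  · intro x hx
    have hd := hB.diff (hbox x hx) 5
    rw [← deriv_eq hd]
    refine (((hB.bounded (hbox x hx)).bound 5 (by norm_num)).2 (bas 3) rfl rfl).trans ?_
    have := basis_norm 3
    calc K * ‖bas 3‖ ≤ K * 1 := by gcongr
      _ ≤ B := by linarith
  · intro x hx a
    refine (ev_norm hB (hbox x hx) a).trans ?_
    gcongr
  · intro x hx a b
    refine (ev_comm hB (hbox x hx) a b).trans ?_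
    gcongr
  · intro x hx b c d
    have h0 : 0 ≤ k (cv x) :=
      (abs_nonneg _).trans ((hB.bounded (hbox x hx)).deriv_vu 0 (by norm_num)).1
    refine (ev_kos hB (hbox x hx) b c d).trans ?_
    gcongr

/-- The curvature is bounded as a distribution of first order if there is a Lipschitz extension. -/
theorem int_le2 (hM : IsSpacetime IsSmooth M) (hg' : IsSpacetime (IsC0W1 ⊤) N) (hI : IsIsom ι)
    (hB : FrontBox M e C z0 r K k) (hF : FrontData ⊤ M N ι h e C z0 r K k p e' A R0 Cc t0 r1 f)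
    (hO : IsOpen O) (hin : ∀ y ∈ O, ∀ v ∈ Ico v0 0,
      ∃ z ∈ P354w.DD t0 r1 f, PsiF e e' ι h (co e' p) A z = ins v y ∧ ‖z.2‖ ≤ r1 / 4)
    {Γ : R4 → R4 → R4 → R4} (hΓ : ∀ x ∈ nullBox z0 r, Conn (M.g e) Γ x) (a b c d : R4) :
    ∃ L : ℝ, 0 ≤ L ∧ ∀ φ : R4 → ℝ, ContDiff ℝ 1 φ → HasCompactSupport φ → tsupport φ ⊆ Dm O v0 →
      Integrable (fun y => (1 + k (cv y)) * |φ y|) →
      |∫ y, φ y * Riem (M.g e) Γ y (fr C y a) (fr C y b) (fr C y c) (fr C y d)| ≤
        L * ∫ y, ((1 + k (cv y)) * |φ y| + ‖fderiv ℝ φ y‖) := by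
  obtain ⟨B, hFH⟩ := fhyp hM hg' hI hB hF hO hin
  have hDbox : ∀ y ∈ Dm O v0, y ∈ nullBox z0 r := fun y hy => (mem_Dm hF hin hy).2.2.2.2
  have := volume_haar
  obtain ⟨L, hL0, hL⟩ := hFH.int_le (fun y hy => hΓ y (hDbox y hy)) a b c d
  refine ⟨L, hL0, fun φ h1 h2 h3 h4 => ?_⟩
  simp only [fr_eq]
  exact hL φ h1 h2 h3 h4

end

/-- a function of v times a function with compact support in a null box -/
lemma int_k {z0 : R4} {r : ℝ} {k : ℝ → ℝ} (hkm : Measurable k) (hz : cv z0 = 0)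
    (hki : IntegrableOn k (Ioo (-r) 0)) {φ : R4 → ℝ} (hφ : Continuous φ)
    (hφc : HasCompactSupport φ) (hφs : tsupport φ ⊆ nullBox z0 r) :
    Integrable (fun y => (1 + k (cv y)) * |φ y|) := by
  obtain ⟨Cφ, hCφ⟩ := hφ.bounded_above_of_compact_support hφc
  set R : ℝ := r + ‖z0‖ with hR
  have hI1 : Integrable ((Icc (-R) R).indicator fun _ : ℝ => (1:ℝ)) :=
    (integrable_indicator_iff measurableSet_Icc).2 (by simp)
  have hI2 : Integrable ((Ioo (-r) 0).indicator fun v : ℝ => |k v|) :=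
    (integrable_indicator_iff measurableSet_Ioo).2 hki.abs
  have h1 : Integrable (fun y : R4 => (Icc (-R) R).indicator (fun _ : ℝ => (1:ℝ)) y.1 *
      ((Ioo (-r) 0).indicator (fun v : ℝ => |k v|) y.2.1 *
        ((Icc (-R) R).indicator (fun _ : ℝ => (1:ℝ)) y.2.2.1 *
          (Icc (-R) R).indicator (fun _ : ℝ => (1:ℝ)) y.2.2.2))) :=
    hI1.mul_prod (hI2.mul_prod (hI1.mul_prod hI1))
  have h2 : Integrable (fun y : R4 => k (cv y) * |φ y|) := by
    refine (h1.const_mul Cφ).mono' ?_ (Filter.Eventually.of_forall fun y => ?_)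
    · have : Measurable (fun y : R4 => k (cv y)) := hkm.comp (by unfold cv; fun_prop)
      exact (this.mul hφ.abs.measurable).aestronglyMeasurable
    · by_cases hy : y ∈ tsupport φ
      · have hb := hφs hy
        have hn := norm_nonneg z0
        have h3 := norm_P4_le.1 (le_refl ‖y - z0‖)
        have h4 := norm_P4_le.1 (le_refl ‖z0‖)
        simp only [Prod.fst_sub, Prod.snd_sub] at h3
        have hlt : ‖y - z0‖ < r := hb.1
        have tri : ∀ s t : ℝ, |s - t| ≤ ‖y - z0‖ → |t| ≤ ‖z0‖ → s ∈ Icc (-R) R := by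
          intro s t h5 h6
          rw [abs_le] at h5 h6
          constructor
          · rw [hR]; linarith [h5.1, h6.1]
          · rw [hR]; linarith [h5.2, h6.2]
        have m1 : y.1 ∈ Icc (-R) R := tri _ _ h3.1 h4.1
        have m3 : y.2.2.1 ∈ Icc (-R) R := tri _ _ h3.2.2.1 h4.2.2.1
        have m4 : y.2.2.2 ∈ Icc (-R) R := tri _ _ h3.2.2.2 h4.2.2.2
        have m2 : y.2.1 ∈ Ioo (-r) 0 := by
          have h5 : z0.2.1 = 0 := hz
          have h6 := h3.2.1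
          rw [h5, sub_zero] at h6
          exact ⟨by linarith [(abs_le.1 h6).1], hb.2⟩
        rw [indicator_of_mem m1, indicator_of_mem m2, indicator_of_mem m3, indicator_of_mem m4]
        rw [Real.norm_eq_abs, abs_mul, abs_abs, one_mul, mul_one, mul_one, mul_comm Cφ]
        have h5 : |φ y| ≤ Cφ := by rw [← Real.norm_eq_abs]; exact hCφ y
        exact mul_le_mul_of_nonneg_left h5 (abs_nonneg _)
      · have h3 : φ y = 0 := image_eq_zero_of_notMem_tsupport hy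
        rw [h3, abs_zero, mul_zero, norm_zero]
        have hC0 : 0 ≤ Cφ := (norm_nonneg _).trans (hCφ y)
        have i1 : ∀ s : ℝ, 0 ≤ (Icc (-R) R).indicator (fun _ : ℝ => (1:ℝ)) s := fun s =>
          indicator_nonneg (fun _ _ => zero_le_one) s
        have i2 : ∀ s : ℝ, 0 ≤ (Ioo (-r) 0).indicator (fun v : ℝ => |k v|) s := fun s =>
          indicator_nonneg (fun _ _ => abs_nonneg _) s
        exact mul_nonneg hC0 (mul_nonneg (i1 _) (mul_nonneg (i2 _) (mul_nonneg (i1 _) (i1 _))))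
  have h3 : Integrable (fun y : R4 => |φ y|) := (hφ.integrable_of_hasCompactSupport hφc).abs
  refine (h3.add h2).congr (Filter.Eventually.of_forall fun y => ?_)
  simp only [Pi.add_apply]
  ring

/-- a null box about a boundary point is covered -/
lemma box_sub {O : Set P354w.P3} {v0 : ℝ} {x : R4} {ε c1 : ℝ}
    (hball : Metric.ball ((x.1, x.2.2) : ℝ × ℝ × ℝ) ε ⊆ sw3 ⁻¹' O) (h1 : c1 ≤ ε)
    (h2 : c1 ≤ -v0) : nullBox (x.1, 0, x.2.2) c1 ⊆ Dm O v0 := by
  intro y hy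
  have hy1 : ‖y - (x.1, 0, x.2.2)‖ < c1 := hy.1
  have k1 : |y.1 - x.1| ≤ ‖y - (x.1, 0, x.2.2)‖ := norm_fst_le (y - (x.1, 0, x.2.2))
  have k2 : ‖(y - (x.1, 0, x.2.2)).2‖ ≤ ‖y - (x.1, 0, x.2.2)‖ := norm_snd_le _
  have k3 : |y.2.1 - 0| ≤ ‖(y - (x.1, 0, x.2.2)).2‖ := norm_fst_le (y - (x.1, 0, x.2.2)).2
  have k4 : ‖y.2.2 - x.2.2‖ ≤ ‖(y - (x.1, 0, x.2.2)).2‖ := norm_snd_le (y - (x.1, 0, x.2.2)).2
  refine ⟨?_, ?_, hy.2⟩
  · have h5 : ((y.1, y.2.2) : ℝ × ℝ × ℝ) ∈ sw3 ⁻¹' O := by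
      apply hball
      rw [Metric.mem_ball, dist_eq_norm]
      have h6 : ((y.1, y.2.2) : ℝ × ℝ × ℝ) - (x.1, x.2.2) = (y.1 - x.1, y.2.2 - x.2.2) := rfl
      rw [h6, Prod.norm_def]
      exact lt_of_lt_of_le (max_lt (lt_of_le_of_lt k1 hy1) (lt_of_le_of_lt (k4.trans k2) hy1)) h1
    exact h5
  · have h5 : |y.2.1| < -v0 := by
      rw [sub_zero] at k3
      exact lt_of_lt_of_le (lt_of_le_of_lt (k3.trans k2) hy1) h2
    linarith [(abs_lt.1 h5).1]

lemma cpt_box {x : R4} {c1 : ℝ} {φ : R4 → ℝ} (hφs : tsupport φ ⊆ nullBox x c1) :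
    HasCompactSupport φ := by
  refine HasCompactSupport.of_support_subset_isCompact (isCompact_closedBall x c1) ?_
  intro y hy
  have h1 : ‖y - x‖ < c1 := (hφs (subset_tsupport φ hy)).1
  rw [Metric.mem_closedBall, dist_eq_norm]
  exact h1.le

/-- **No Lipschitz extension through a front where the curvature blows up.** -/
theorem front_curv2 {M N : Spc} {ι : M.pt → N.pt}
    (hM : IsSpacetime IsSmooth M)
    (hg' : IsSpacetime (IsC0W1 ⊤) N) (h : IsOpenEmbedding ι) (hI : IsIsom ι) {c : ℝ → N.pt}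
    (hc : IsFutureCurve N 0 (Icc 0 1) c) {a : ℝ → M.pt} (ha : ∀ t ∈ Ico (0:ℝ) 1, ι (a t) = c t)
    {e : M.Chart} {C : ℕ → R4 → ℝ} {z : R4} {r K : ℝ} {k : ℝ → ℝ} {Γ : R4 → R4 → R4 → R4}
    (hB : FrontBox M e C z r K k)
    (hain : EndsAt a e (nullBox z r) z)
    (hΓ : ∀ x ∈ nullBox z r, Conn (M.g e) Γ x)
    (hall : ∀ x ∈ nullBox z r, ∀ c > 0, ∃ p q s t, ∀ L : ℝ, ∃ φ : R4 → ℝ, ContDiff ℝ 1 φ ∧
      tsupport φ ⊆ nullBox (x.1, 0, x.2.2) c ∧
      L * ∫ y, ((1 + k (cv y)) * |φ y| + ‖fderiv ℝ φ y‖) <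
        |∫ y, φ y * Riem (M.g e) Γ y (fr C y p) (fr C y q) (fr C y s) (fr C y t)|) : False := by
  have hne : Nonempty M.pt := ⟨a 0⟩
  have hr := hB.dn.r_pos
  have hK := hB.K_one
  obtain ⟨e', A, R0, Cc, t0, r1, f, hF, O, hO, ⟨y1, hy1⟩, v0, hv0, hin⟩ :=
    exists_frontData_open (h := h) le_top hM hg' hI hB hc ha hain
  have hMB : ∀ y ∈ O, ∀ v ∈ Ico v0 0, ins v y ∈ MB (Sp z) r := by
    intro y hy v hv
    obtain ⟨w, hw, hwy, _⟩ := hin y hy v hv
    rw [← hwy]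
    exact hF.core.maps (hF.core.DD_sub hw)
  -- a point and a neighbourhood
  have hv2 : v0 / 2 ∈ Ioo v0 0 := ⟨by linarith, by linarith⟩
  set x : R4 := Sp.symm (ins (v0 / 2) y1) with hx
  have hxn : x ∈ nullBox z r := by
    have := hMB y1 hy1 (v0 / 2) ⟨hv2.1.le, hv2.2⟩
    rw [Sp_symm_mem] at this
    exact this
  have hO'o : IsOpen (sw3 ⁻¹' O) := hO.preimage sw3_cont
  have hxO : ((x.1, x.2.2) : ℝ × ℝ × ℝ) ∈ sw3 ⁻¹' O := by
    rw [hx, Sp_symm_apply]
    exact hy1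
  obtain ⟨ε, hε, hball⟩ := Metric.isOpen_iff.1 hO'o _ hxO
  have hc10 : 0 < min ε (-v0) := lt_min hε (by linarith)
  have hsub := box_sub hball (min_le_left ε (-v0)) (min_le_right ε (-v0))
  obtain ⟨p, q, s, t, hbad⟩ := hall x hxn _ hc10
  have hDbox : ∀ y ∈ Dm O v0, y ∈ nullBox z r := fun y hy => (mem_Dm hF hin hy).2.2.2.2
  obtain ⟨L, hL0, hL⟩ := int_le2 hM hg' hI hB hF hO hin hΓ p q s t
  obtain ⟨φ, hφ, hφs, hlt⟩ := hbad L
  have hφc := cpt_box hφs
  have hi : Integrable (fun y => (1 + k (cv y)) * |φ y|) :=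
    int_k (hB.dn.intg k (Or.inl rfl)).1 hB.base (hB.dn.intg k (Or.inl rfl)).2 hφ.continuous hφc
      (fun y hy => hDbox y (hsub (hφs hy)))
  exact absurd (hL φ hφ hφc (hφs.trans hsub) hi) (not_le.2 hlt)

end Vale.Agent.P354k
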