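import Vale.Agent.P354n.Defs

open scoped ContDiff NNReal
open MeasureTheory Set Filter Topology

namespace Vale.Agent.P354k
open P354n

theorem lineDeriv_neg_right' {f : R4 → ℝ} (x a : R4) (hf : DifferentiableAt ℝ f x) :
    lineDeriv ℝ f x (-a) = - lineDeriv ℝ f x a := by
  rw [hf.lineDeriv_eq_fderiv, hf.lineDeriv_eq_fderiv, map_neg]

theorem volume_haar : Measure.IsAddHaarMeasure (volume : Measure R4) := by
  have h2 : Measure.IsAddHaarMeasure (volume : Measure (ℝ × ℝ)) := inferInstance
  have h3 : Measure.IsAddHaarMeasure (volume : Measure (ℝ × ℝ × ℝ)) :=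
    inferInstanceAs ((volume : Measure ℝ).prod (volume : Measure (ℝ × ℝ))).IsAddHaarMeasure
  exact inferInstanceAs
    ((volume : Measure ℝ).prod (volume : Measure (ℝ × ℝ × ℝ))).IsAddHaarMeasure

/-- A locally Lipschitz function has locally bounded distributional derivatives. -/
theorem isC0W1_of_locallyLipschitzOn {f : R4 → ℝ} {D : Set R4} (hD : IsOpen D)
    (hf : LocallyLipschitzOn D f) : IsC0W1 ⊤ f D := by
  -- near a compact subset, f agrees with a Lipschitz function
  have key : ∀ Q ⊆ D, IsCompact Q → ∃ (K : ℝ≥0) (g : R4 → ℝ), LipschitzWith K g ∧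
      ∀ x ∈ Q, f =ᶠ[𝓝 x] g := by
    intro Q hQ hQc
    obtain ⟨L, hLc, hQL, hLD⟩ := exists_compact_between hQc hD hQ
    obtain ⟨K, hK⟩ := (hf.mono hLD).exists_lipschitzOnWith_of_compact hLc
    obtain ⟨g, hg, hfg⟩ := hK.extend_real
    refine ⟨K, g, hg, fun x hx => ?_⟩
    filter_upwards [isOpen_interior.mem_nhds (hQL hx)] with y hy using hfg (interior_subset hy)
  refine ⟨hf.continuousOn, fun a => ⟨fun x => lineDeriv ℝ f x a, ?_, ?_⟩⟩
  · intro Q hQ hQc
    obtain ⟨K, g, hg, hfg⟩ := key Q hQ hQc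
    have h1 : MemLp (fun x => lineDeriv ℝ g x a) ⊤ (volume.restrict Q) :=
      memLp_top_of_bound (measurable_lineDeriv hg.continuous).aestronglyMeasurable (K * ‖a‖)
        (.of_forall fun x => norm_lineDeriv_le_of_lipschitz ℝ hg)
    refine h1.ae_eq ?_
    refine (ae_restrict_iff' hQc.measurableSet).2 (.of_forall fun x hx => ?_)
    exact ((hfg x hx).lineDeriv_eq (v := a)).symm
  · intro φ hφ hc hs
    obtain ⟨K, g, hg, hfg⟩ := key _ hs hc
    have hφ1 : ContDiff ℝ 1 φ := (contDiffOn_univ.1 hφ).of_le (by norm_num)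
    have := volume_haar
    obtain ⟨K', hK'⟩ := ContDiff.lipschitzWith_of_hasCompactSupport hc hφ1 (by simp)
    have e1 := hg.integral_lineDeriv_mul_eq (μ := volume) hK' hc a
    have e2 : ∀ x, f x * P354n.deriv φ x a = - (lineDeriv ℝ φ x (-a) * g x) := by
      intro x
      rw [lineDeriv_neg_right' x a (hφ1.differentiable (by simp) x)]
      by_cases hx : x ∈ tsupport φ
      · rw [(hfg x hx).self_of_nhds]
        simp only [P354n.deriv]
        ring
      · have : lineDeriv ℝ φ x a = 0 := by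
          have h0 : φ =ᶠ[𝓝 x] fun _ => 0 := notMem_tsupport_iff_eventuallyEq.1 hx
          rw [h0.lineDeriv_eq]
          simp [lineDeriv]
        simp only [P354n.deriv]
        rw [this]
        ring
    have e3 : ∀ x, lineDeriv ℝ f x a * φ x = lineDeriv ℝ g x a * φ x := by
      intro x
      by_cases hx : x ∈ tsupport φ
      · rw [(hfg x hx).lineDeriv_eq]
      · rw [image_eq_zero_of_notMem_tsupport hx, mul_zero, mul_zero]
    simp_rw [e2, e3, integral_neg, e1]

end Vale.Agent.P354k
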