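import Vale.Agent.P354k.Calc2

set_option linter.unusedSectionVars false
set_option maxSynthPendingDepth 3

open MeasureTheory Set Filter Topology
open scoped ContDiff

namespace Vale.Agent.P354k

section

variable {E E' : Type*} [NormedAddCommGroup E] [NormedSpace ℝ E]
  [NormedAddCommGroup E'] [NormedSpace ℝ E']

/-- the frame vector with the constant components a -/
def Ev (σ1 σ2 : E → ℝ) (ℓ : E →L[ℝ] ℝ) (w1 w2 : E) (y a : E) : E :=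
  a + (ℓ a * σ1 y) • w1 + (ℓ a * σ2 y) • w2

/-- The metric g is the pull back of H by F, all bounded by B, up to the connection of g in the
frame, which is bounded by kap. -/
structure FHyp (g : E → E → E → ℝ) (F : E → E') (H : E → E' →L[ℝ] E' →L[ℝ] ℝ) (D : Set E)
    (B : ℝ) (kap : E → ℝ) (σ1 σ2 : E → ℝ) (ℓ : E →L[ℝ] ℝ) (w1 w2 : E) : Prop
    extends CB g F H D where
  one_le : 1 ≤ B
  hF : ∀ y ∈ D, ‖fderiv ℝ F y‖ ≤ B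
  hH : ∀ y ∈ D, ‖H y‖ ≤ B
  hDH : ∀ y ∈ D, ‖fderiv ℝ H y‖ ≤ B
  inv : ∀ y ∈ D, ∀ w, ∃ d, fderiv ℝ F y d = w ∧ ‖d‖ ≤ B * ‖w‖
  nondeg : ∀ y ∈ D, ∀ s, ∃ w, ‖w‖ ≤ 1 ∧ ‖s‖ ≤ B * |H y s w|
  kap_one : ∀ y ∈ D, 1 ≤ kap y
  sm1 : ContDiffOn ℝ ∞ σ1 D
  sm2 : ContDiffOn ℝ ∞ σ2 D
  b1 : ∀ y ∈ D, |σ1 y| ≤ B
  b2 : ∀ y ∈ D, |σ2 y| ≤ B
  d1 : ∀ y ∈ D, |fderiv ℝ σ1 y w1| ≤ B
  d2 : ∀ y ∈ D, |fderiv ℝ σ2 y w2| ≤ B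
  hE : ∀ y ∈ D, ∀ a, ‖Ev σ1 σ2 ℓ w1 w2 y a‖ ≤ B * ‖a‖
  comm : ∀ y ∈ D, ∀ a b, ‖fderiv ℝ (fun z => Ev σ1 σ2 ℓ w1 w2 z b) y (Ev σ1 σ2 ℓ w1 w2 y a) -
    fderiv ℝ (fun z => Ev σ1 σ2 ℓ w1 w2 z a) y (Ev σ1 σ2 ℓ w1 w2 y b)‖ ≤ B * (‖a‖ * ‖b‖)
  kos : ∀ y ∈ D, ∀ b c d, |(fderiv ℝ (fun z => g z (Ev σ1 σ2 ℓ w1 w2 y c) d) y
      (Ev σ1 σ2 ℓ w1 w2 y b) +
    fderiv ℝ (fun z => g z (Ev σ1 σ2 ℓ w1 w2 y b) d) y (Ev σ1 σ2 ℓ w1 w2 y c) -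
    fderiv ℝ (fun z => g z (Ev σ1 σ2 ℓ w1 w2 y b) (Ev σ1 σ2 ℓ w1 w2 y c)) y d) / 2 +
    g y (fderiv ℝ (fun z => Ev σ1 σ2 ℓ w1 w2 z c) y (Ev σ1 σ2 ℓ w1 w2 y b)) d| ≤
      B * kap y * (‖b‖ * ‖c‖ * ‖d‖)

lemma smooth_Ev {σ1 σ2 : E → ℝ} {D : Set E} (h1 : ContDiffOn ℝ ∞ σ1 D)
    (h2 : ContDiffOn ℝ ∞ σ2 D) (ℓ : E →L[ℝ] ℝ) (w1 w2 a : E) :
    ContDiffOn ℝ ∞ (fun z => Ev σ1 σ2 ℓ w1 w2 z a) D := by
  unfold Ev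
  exact (contDiffOn_const.add ((contDiffOn_const.mul h1).smul contDiffOn_const)).add
    ((contDiffOn_const.mul h2).smul contDiffOn_const)

namespace FHyp

variable {g : E → E → E → ℝ} {F : E → E'} {H : E → E' →L[ℝ] E' →L[ℝ] ℝ} {D : Set E}
    {B : ℝ} {kap : E → ℝ} {σ1 σ2 : E → ℝ} {ℓ : E →L[ℝ] ℝ} {w1 w2 : E} {Γ : E → E → E → E}

lemma H_le (h : FHyp g F H D B kap σ1 σ2 ℓ w1 w2) {y : E} (hy : y ∈ D) (s w : E') :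
    |H y s w| ≤ B * (‖s‖ * ‖w‖) := by
  have h1 := (H y s).le_opNorm w
  have h2 := (H y).le_opNorm s
  rw [Real.norm_eq_abs] at h1
  calc |H y s w| ≤ ‖H y s‖ * ‖w‖ := h1
    _ ≤ (‖H y‖ * ‖s‖) * ‖w‖ := by gcongr
    _ ≤ (B * ‖s‖) * ‖w‖ := by gcongr; exact h.hH y hy
    _ = _ := by ring

lemma F_le (h : FHyp g F H D B kap σ1 σ2 ℓ w1 w2) {y : E} (hy : y ∈ D) (a : E) :
    ‖fderiv ℝ F y a‖ ≤ B * ‖a‖ :=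
  ((fderiv ℝ F y).le_opNorm a).trans (mul_le_mul_of_nonneg_right (h.hF y hy) (norm_nonneg _))

lemma DH_le (h : FHyp g F H D B kap σ1 σ2 ℓ w1 w2) {y : E} (hy : y ∈ D) (a : E) (s w : E') :
    |fderiv ℝ H y a s w| ≤ B * (‖a‖ * ‖s‖ * ‖w‖) := by
  have h1 := (fderiv ℝ H y a s).le_opNorm w
  have h2 := (fderiv ℝ H y a).le_opNorm s
  have h3 := (fderiv ℝ H y).le_opNorm a
  rw [Real.norm_eq_abs] at h1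
  calc |fderiv ℝ H y a s w| ≤ ‖fderiv ℝ H y a s‖ * ‖w‖ := h1
    _ ≤ (‖fderiv ℝ H y a‖ * ‖s‖) * ‖w‖ := by gcongr
    _ ≤ ((‖fderiv ℝ H y‖ * ‖a‖) * ‖s‖) * ‖w‖ := by gcongr
    _ ≤ ((B * ‖a‖) * ‖s‖) * ‖w‖ := by gcongr; exact h.hDH y hy
    _ = _ := by ring

lemma TT_le (h : FHyp g F H D B kap σ1 σ2 ℓ w1 w2) {y : E} (hy : y ∈ D) (b c d : E) :
    |TT F H b c d y| ≤ 2 * B ^ 3 * (‖b‖ * ‖c‖ * ‖d‖) := by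
  have hB := h.one_le
  have hB0 : 0 ≤ B := by linarith
  have key : ∀ a b c : E, |fderiv ℝ H y a (fderiv ℝ F y b) (fderiv ℝ F y c)| ≤
      B ^ 3 * (‖a‖ * ‖b‖ * ‖c‖) := by
    intro a b c
    calc |fderiv ℝ H y a (fderiv ℝ F y b) (fderiv ℝ F y c)|
        ≤ B * (‖a‖ * ‖fderiv ℝ F y b‖ * ‖fderiv ℝ F y c‖) := h.DH_le hy _ _ _
      _ ≤ B * (‖a‖ * (B * ‖b‖) * (B * ‖c‖)) := by
        gcongr
        · exact h.F_le hy b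
        · exact h.F_le hy c
      _ = _ := by ring
  have k1 := key b c d
  have k2 := key c b d
  have k3 := key d b c
  have e1 : ‖c‖ * ‖b‖ * ‖d‖ = ‖b‖ * ‖c‖ * ‖d‖ := by ring
  have e2 : ‖d‖ * ‖b‖ * ‖c‖ = ‖b‖ * ‖c‖ * ‖d‖ := by ring
  rw [e1] at k2
  rw [e2] at k3
  unfold TT
  rw [abs_div, abs_two, div_le_iff₀ (by norm_num)]
  have h4 : 0 ≤ B ^ 3 * (‖b‖ * ‖c‖ * ‖d‖) := by positivity
  refine (abs_sub _ _).trans ?_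
  refine (add_le_add (abs_add_le _ _) le_rfl).trans ?_
  linarith

/-- the difference of the second derivatives and the pulled back connection -/
lemma S_le (h : FHyp g F H D B kap σ1 σ2 ℓ w1 w2) (hΓ : ∀ y ∈ D, Conn g Γ y) {y : E}
    (hy : y ∈ D) (b c : E) :
    ‖fderiv ℝ F y (Γ y b c) - PP F b c y‖ ≤ 2 * B ^ 5 * (‖b‖ * ‖c‖) := by
  have hB := h.one_le
  have hB0 : 0 ≤ B := by linarith
  obtain ⟨w, hw, hn⟩ := h.nondeg y hy (fderiv ℝ F y (Γ y b c) - PP F b c y)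
  obtain ⟨d, hd, hdn⟩ := h.inv y hy w
  have h1 : H y (fderiv ℝ F y (Γ y b c) - PP F b c y) w = TT F H b c d y := by
    rw [← hd, map_sub, _root_.sub_apply, h.gam hΓ hy b c d]
    ring
  have hd1 : ‖d‖ ≤ B := hdn.trans (by nlinarith)
  rw [h1] at hn
  calc ‖fderiv ℝ F y (Γ y b c) - PP F b c y‖ ≤ B * |TT F H b c d y| := hn
    _ ≤ B * (2 * B ^ 3 * (‖b‖ * ‖c‖ * ‖d‖)) := by gcongr; exact h.TT_le hy b c d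
    _ ≤ B * (2 * B ^ 3 * (‖b‖ * ‖c‖ * B)) := by gcongr
    _ = _ := by ring

lemma SE_le (h : FHyp g F H D B kap σ1 σ2 ℓ w1 w2) (hΓ : ∀ y ∈ D, Conn g Γ y) {y : E}
    (hy : y ∈ D) (b c : E) :
    ‖fderiv ℝ F y (Γ y (Ev σ1 σ2 ℓ w1 w2 y b) (Ev σ1 σ2 ℓ w1 w2 y c)) -
      PP F (Ev σ1 σ2 ℓ w1 w2 y b) (Ev σ1 σ2 ℓ w1 w2 y c) y‖ ≤ 2 * B ^ 7 * (‖b‖ * ‖c‖) := by
  have hB := h.one_le
  have hB0 : 0 ≤ B := by linarith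
  refine (h.S_le hΓ hy _ _).trans ?_
  calc 2 * B ^ 5 * (‖Ev σ1 σ2 ℓ w1 w2 y b‖ * ‖Ev σ1 σ2 ℓ w1 w2 y c‖)
      ≤ 2 * B ^ 5 * ((B * ‖b‖) * (B * ‖c‖)) := by
        gcongr
        · exact h.hE y hy b
        · exact h.hE y hy c
    _ = _ := by ring

/-- the second derivatives along the frame -/
lemma Ph_le (h : FHyp g F H D B kap σ1 σ2 ℓ w1 w2) {y : E} (hy : y ∈ D) (b c : E) :
    ‖Ph F (fun z => Ev σ1 σ2 ℓ w1 w2 z b) (fun z => Ev σ1 σ2 ℓ w1 w2 z c) y‖ ≤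
      3 * B ^ 7 * kap y * (‖b‖ * ‖c‖) := by
  have hB := h.one_le
  have hB0 : 0 ≤ B := by linarith
  have hk := h.kap_one y hy
  have hk0 : 0 ≤ kap y := by linarith
  set Xb := fun z => Ev σ1 σ2 ℓ w1 w2 z b with hXb
  set Xc := fun z => Ev σ1 σ2 ℓ w1 w2 z c with hXc
  have hcd : DifferentiableAt ℝ Xc y := dAt h.openD (smooth_Ev h.sm1 h.sm2 ℓ w1 w2 c) hy
  have hP : Ph F Xb Xc y = PP F (Xb y) (Xc y) y + fderiv ℝ F y (fderiv ℝ Xc y (Xb y)) :=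
    fderiv_F2 h.openD h.smF hy hcd (Xb y)
  obtain ⟨w, hw, hn⟩ := h.nondeg y hy (Ph F Xb Xc y)
  obtain ⟨d, hd, hdn⟩ := h.inv y hy w
  have hd1 : ‖d‖ ≤ B := hdn.trans (by nlinarith)
  have hev : ∀ a b : E, (fun y => g y a b) =ᶠ[𝓝 y]
      fun y => H y (fderiv ℝ F y a) (fderiv ℝ F y b) := by
    intro a b
    filter_upwards [h.openD.mem_nhds hy] with z hz
    exact h.iso z hz a b
  have h2 := chr_eq h.openD h.smF h.smH h.symm hy (Xb y) (Xc y) d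
  rw [← (hev (Xc y) d).fderiv_eq, ← (hev (Xb y) d).fderiv_eq,
    ← (hev (Xb y) (Xc y)).fderiv_eq] at h2
  have hkos := h.kos y hy b c d
  have h3 : H y (Ph F Xb Xc y) w = ((fderiv ℝ (fun z => g z (Xc y) d) y (Xb y) +
    fderiv ℝ (fun z => g z (Xb y) d) y (Xc y) -
    fderiv ℝ (fun z => g z (Xb y) (Xc y)) y d) / 2 + g y (fderiv ℝ Xc y (Xb y)) d) -
      TT F H (Xb y) (Xc y) d y := by
    rw [h2, hP, ← hd, map_add, _root_.add_apply, h.iso y hy]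
    ring
  have k4 := h.TT_le hy (Xb y) (Xc y) d
  have hEb : ‖Xb y‖ ≤ B * ‖b‖ := h.hE y hy b
  have hEc : ‖Xc y‖ ≤ B * ‖c‖ := h.hE y hy c
  have h4 : |H y (Ph F Xb Xc y) w| ≤ B * kap y * (‖b‖ * ‖c‖ * B) +
      2 * B ^ 3 * ((B * ‖b‖) * (B * ‖c‖) * B) := by
    rw [h3]
    refine (abs_sub _ _).trans (add_le_add (hkos.trans ?_) (k4.trans ?_))
    · gcongr
    · gcongr
  have q0 : 0 ≤ ‖b‖ * ‖c‖ := by positivity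
  have q1 : B ^ 3 ≤ B ^ 7 := pow_le_pow_right₀ hB (by norm_num)
  calc ‖Ph F Xb Xc y‖ ≤ B * |H y (Ph F Xb Xc y) w| := hn
    _ ≤ B * (B * kap y * (‖b‖ * ‖c‖ * B) + 2 * B ^ 3 * ((B * ‖b‖) * (B * ‖c‖) * B)) := by gcongr
    _ = B ^ 3 * kap y * (‖b‖ * ‖c‖) + 2 * B ^ 7 * (1 * (‖b‖ * ‖c‖)) := by ring
    _ ≤ B ^ 7 * kap y * (‖b‖ * ‖c‖) + 2 * B ^ 7 * (kap y * (‖b‖ * ‖c‖)) := by gcongr
    _ = _ := by ring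

/-- The curvature in the frame up to a divergence. -/
lemma QF_le (h : FHyp g F H D B kap σ1 σ2 ℓ w1 w2) (hΓ : ∀ y ∈ D, Conn g Γ y) {y : E}
    (hy : y ∈ D) (a b c d : E) :
    |Riem g Γ y (Ev σ1 σ2 ℓ w1 w2 y a) (Ev σ1 σ2 ℓ w1 w2 y b) (Ev σ1 σ2 ℓ w1 w2 y c)
        (Ev σ1 σ2 ℓ w1 w2 y d) -
      (fderiv ℝ (fun y => TT F H (Ev σ1 σ2 ℓ w1 w2 y b) (Ev σ1 σ2 ℓ w1 w2 y c)
        (Ev σ1 σ2 ℓ w1 w2 y d) y) y (Ev σ1 σ2 ℓ w1 w2 y a) -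
      fderiv ℝ (fun y => TT F H (Ev σ1 σ2 ℓ w1 w2 y a) (Ev σ1 σ2 ℓ w1 w2 y c)
        (Ev σ1 σ2 ℓ w1 w2 y d) y) y (Ev σ1 σ2 ℓ w1 w2 y b))| ≤
      50 * B ^ 15 * (‖a‖ * ‖b‖ * ‖c‖ * ‖d‖) * kap y := by
  have hB := h.one_le
  have hB0 : 0 ≤ B := by linarith
  have hk := h.kap_one y hy
  have hk0 : 0 ≤ kap y := by linarith
  have hsm := fun a => smooth_Ev h.sm1 h.sm2 ℓ w1 w2 a
  have hR := h.riem_F hΓ (hsm a) (hsm b) (hsm c) (hsm d) hy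
  have hp11 : B ^ 11 ≤ B ^ 15 := pow_le_pow_right₀ hB (by norm_num)
  have hp6 : B ^ 6 ≤ B ^ 15 := pow_le_pow_right₀ hB (by norm_num)
  have hp0 : 0 ≤ B ^ 15 := by positivity
  have a1 : ∀ a b c d : E, |fderiv ℝ H y (Ev σ1 σ2 ℓ w1 w2 y a)
      (Ph F (fun z => Ev σ1 σ2 ℓ w1 w2 z b) (fun z => Ev σ1 σ2 ℓ w1 w2 z c) y)
      (fderiv ℝ F y (Ev σ1 σ2 ℓ w1 w2 y d))| ≤
      6 * B ^ 15 * (‖a‖ * ‖b‖ * ‖c‖ * ‖d‖) * kap y := by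
    intro a b c d
    refine (h.DH_le hy _ _ _).trans ?_
    calc _ ≤ B * ((B * ‖a‖) * (3 * B ^ 7 * kap y * (‖b‖ * ‖c‖)) * (B * (B * ‖d‖))) := by
          gcongr
          · exact h.hE y hy a
          · exact h.Ph_le hy b c
          · refine (h.F_le hy _).trans ?_
            gcongr
            exact h.hE y hy d
      _ = 3 * B ^ 11 * (‖a‖ * ‖b‖ * ‖c‖ * ‖d‖ * kap y) := by ring
      _ ≤ 6 * B ^ 15 * (‖a‖ * ‖b‖ * ‖c‖ * ‖d‖ * kap y) :=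
        mul_le_mul_of_nonneg_right (by linarith only [hp11, hp0]) (by positivity)
      _ = _ := by ring
  have a2 : ∀ a b c d : E, |H y (Ph F (fun z => Ev σ1 σ2 ℓ w1 w2 z a)
      (fun z => Ev σ1 σ2 ℓ w1 w2 z b) y)
      (fderiv ℝ F y (Γ y (Ev σ1 σ2 ℓ w1 w2 y c) (Ev σ1 σ2 ℓ w1 w2 y d)) -
      PP F (Ev σ1 σ2 ℓ w1 w2 y c) (Ev σ1 σ2 ℓ w1 w2 y d) y)| ≤
      6 * B ^ 15 * (‖a‖ * ‖b‖ * ‖c‖ * ‖d‖) * kap y := by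
    intro a b c d
    refine (h.H_le hy _ _).trans ?_
    calc _ ≤ B * ((3 * B ^ 7 * kap y * (‖a‖ * ‖b‖)) * (2 * B ^ 7 * (‖c‖ * ‖d‖))) := by
          gcongr
          · exact h.Ph_le hy a b
          · exact h.SE_le hΓ hy c d
      _ = _ := by ring
  have a3 : ∀ a b c d : E, |H y
      (fderiv ℝ F y (Γ y (Ev σ1 σ2 ℓ w1 w2 y a) (Ev σ1 σ2 ℓ w1 w2 y b)) -
      PP F (Ev σ1 σ2 ℓ w1 w2 y a) (Ev σ1 σ2 ℓ w1 w2 y b) y)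
      (Ph F (fun z => Ev σ1 σ2 ℓ w1 w2 z c) (fun z => Ev σ1 σ2 ℓ w1 w2 z d) y)| ≤
      6 * B ^ 15 * (‖a‖ * ‖b‖ * ‖c‖ * ‖d‖) * kap y := by
    intro a b c d
    rw [h.symm y hy]
    refine (a2 c d a b).trans (le_of_eq ?_)
    ring
  have a4 : ∀ a b c d : E, |H y
      (fderiv ℝ F y (Γ y (Ev σ1 σ2 ℓ w1 w2 y a) (Ev σ1 σ2 ℓ w1 w2 y b)) -
      PP F (Ev σ1 σ2 ℓ w1 w2 y a) (Ev σ1 σ2 ℓ w1 w2 y b) y)
      (fderiv ℝ F y (Γ y (Ev σ1 σ2 ℓ w1 w2 y c) (Ev σ1 σ2 ℓ w1 w2 y d)) -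
      PP F (Ev σ1 σ2 ℓ w1 w2 y c) (Ev σ1 σ2 ℓ w1 w2 y d) y)| ≤
      6 * B ^ 15 * (‖a‖ * ‖b‖ * ‖c‖ * ‖d‖) * kap y := by
    intro a b c d
    refine (h.H_le hy _ _).trans ?_
    calc _ ≤ B * ((2 * B ^ 7 * (‖a‖ * ‖b‖)) * (2 * B ^ 7 * (‖c‖ * ‖d‖))) := by
          gcongr
          · exact h.SE_le hΓ hy a b
          · exact h.SE_le hΓ hy c d
      _ = 4 * B ^ 15 * (‖a‖ * ‖b‖ * ‖c‖ * ‖d‖ * 1) := by ring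
      _ ≤ 6 * B ^ 15 * (‖a‖ * ‖b‖ * ‖c‖ * ‖d‖ * kap y) := by
        refine mul_le_mul (by linarith only [hp0]) ?_ (by positivity) (by positivity)
        exact mul_le_mul_of_nonneg_left hk (by positivity)
      _ = _ := by ring
  have a5 : |TT F H (fderiv ℝ (fun z => Ev σ1 σ2 ℓ w1 w2 z b) y (Ev σ1 σ2 ℓ w1 w2 y a) -
      fderiv ℝ (fun z => Ev σ1 σ2 ℓ w1 w2 z a) y (Ev σ1 σ2 ℓ w1 w2 y b))
      (Ev σ1 σ2 ℓ w1 w2 y c) (Ev σ1 σ2 ℓ w1 w2 y d) y| ≤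
      2 * B ^ 15 * (‖a‖ * ‖b‖ * ‖c‖ * ‖d‖) * kap y := by
    refine (h.TT_le hy _ _ _).trans ?_
    calc _ ≤ 2 * B ^ 3 * ((B * (‖a‖ * ‖b‖)) * (B * ‖c‖) * (B * ‖d‖)) := by
          gcongr
          · exact h.comm y hy a b
          · exact h.hE y hy c
          · exact h.hE y hy d
      _ = 2 * B ^ 6 * (‖a‖ * ‖b‖ * ‖c‖ * ‖d‖ * 1) := by ring
      _ ≤ 2 * B ^ 15 * (‖a‖ * ‖b‖ * ‖c‖ * ‖d‖ * kap y) := by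
        refine mul_le_mul (by linarith only [hp6]) ?_ (by positivity) (by positivity)
        exact mul_le_mul_of_nonneg_left hk (by positivity)
      _ = _ := by ring
  have b1 := a1 a b c d
  have b2 := a1 b a c d
  have b3 := a2 b c a d
  have b4 := a3 b c a d
  have b5 := a4 b c a d
  have b6 := a2 a c b d
  have b7 := a3 a c b d
  have b8 := a4 a c b d
  have e1 : ‖b‖ * ‖a‖ * ‖c‖ * ‖d‖ = ‖a‖ * ‖b‖ * ‖c‖ * ‖d‖ := by ring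
  have e2 : ‖b‖ * ‖c‖ * ‖a‖ * ‖d‖ = ‖a‖ * ‖b‖ * ‖c‖ * ‖d‖ := by ring
  have e3 : ‖a‖ * ‖c‖ * ‖b‖ * ‖d‖ = ‖a‖ * ‖b‖ * ‖c‖ * ‖d‖ := by ring
  rw [e1] at b2
  rw [e2] at b3 b4 b5
  rw [e3] at b6 b7 b8
  rw [hR]
  unfold QF
  rw [abs_le] at a5 b1 b2 b3 b4 b5 b6 b7 b8 ⊢
  constructor
  · linarith only [a5.2, b1.1, b2.2, b3.2, b4.2, b5.2, b6.1, b7.1, b8.1]
  · linarith only [a5.1, b1.2, b2.1, b3.1, b4.1, b5.1, b6.2, b7.2, b8.2]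

end FHyp

end

end Vale.Agent.P354k
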