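import Mathlib

set_option maxSynthPendingDepth 3

open MeasureTheory Set Filter Topology
open scoped ContDiff

namespace Vale.Agent.P354k

section

variable {E E' : Type*} [NormedAddCommGroup E] [NormedSpace ℝ E]
  [NormedAddCommGroup E'] [NormedSpace ℝ E']

/-- second derivatives of a map -/
noncomputable def PP (F : E → E') (b c y : E) : E' := fderiv ℝ (fun y => fderiv ℝ F y c) y b

/-- the Christoffel symbols of first kind of the target metric, pulled back -/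
noncomputable def TT (F : E → E') (H : E → E' →L[ℝ] E' →L[ℝ] ℝ) (b c d y : E) : ℝ :=
  (fderiv ℝ H y b (fderiv ℝ F y c) (fderiv ℝ F y d) +
    fderiv ℝ H y c (fderiv ℝ F y b) (fderiv ℝ F y d) -
    fderiv ℝ H y d (fderiv ℝ F y b) (fderiv ℝ F y c)) / 2

/-- product rule -/
lemma fderiv_H {H : E → E' →L[ℝ] E' →L[ℝ] ℝ} {X Y : E → E'} {y : E}
    (hH : DifferentiableAt ℝ H y) (hX : DifferentiableAt ℝ X y) (hY : DifferentiableAt ℝ Y y)
    (a : E) : fderiv ℝ (fun y => H y (X y) (Y y)) y a =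
      fderiv ℝ H y a (X y) (Y y) + H y (fderiv ℝ X y a) (Y y) + H y (X y) (fderiv ℝ Y y a) := by
  have h1 := (hH.hasFDerivAt.clm_apply hX.hasFDerivAt).clm_apply hY.hasFDerivAt
  rw [h1.fderiv]
  simp
  ring

variable {F : E → E'} {H : E → E' →L[ℝ] E' →L[ℝ] ℝ} {D : Set E}

lemma smooth_F1 (hD : IsOpen D) (hF : ContDiffOn ℝ ∞ F D) (c : E) :
    ContDiffOn ℝ ∞ (fun y => fderiv ℝ F y c) D :=
  (hF.fderiv_of_isOpen hD (m := ∞) (by simp)).clm_apply contDiffOn_const

lemma smooth_PP (hD : IsOpen D) (hF : ContDiffOn ℝ ∞ F D) (b c : E) :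
    ContDiffOn ℝ ∞ (PP F b c) D := smooth_F1 hD (smooth_F1 hD hF c) b

lemma smooth_TT (hD : IsOpen D) (hF : ContDiffOn ℝ ∞ F D) (hH : ContDiffOn ℝ ∞ H D) (b c d : E) :
    ContDiffOn ℝ ∞ (TT F H b c d) D := by
  have h1 : ∀ a b c : E, ContDiffOn ℝ ∞
      (fun y => fderiv ℝ H y a (fderiv ℝ F y b) (fderiv ℝ F y c)) D := fun a b c =>
    ((smooth_F1 hD hH a).clm_apply (smooth_F1 hD hF b)).clm_apply (smooth_F1 hD hF c)
  have h2 := (((h1 b c d).add (h1 c b d)).sub (h1 d b c)).div_const 2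
  exact h2

lemma dAt {X : Type*} [NormedAddCommGroup X] [NormedSpace ℝ X] {f : E → X} (hD : IsOpen D)
    (hf : ContDiffOn ℝ ∞ f D) {y : E} (hy : y ∈ D) : DifferentiableAt ℝ f y :=
  (hf.differentiableOn (by simp)).differentiableAt (hD.mem_nhds hy)

lemma PP_symm (hD : IsOpen D) (hF : ContDiffOn ℝ ∞ F D) {y : E} (hy : y ∈ D) (b c : E) :
    PP F b c y = PP F c b y := by
  have h0 : ContDiffAt ℝ 2 F y := (hF.contDiffAt (hD.mem_nhds hy)).of_le (by norm_cast)
  have hd : DifferentiableAt ℝ (fderiv ℝ F) y :=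
    (h0.fderiv_right (m := 1) (by norm_num)).differentiableAt (by norm_num)
  have h1 : ∀ b c : E, PP F b c y = fderiv ℝ (fderiv ℝ F) y b c := by
    intro b c
    unfold PP
    have h2 := hd.hasFDerivAt.clm_apply (hasFDerivAt_const c y)
    rw [h2.fderiv]
    simp
  rw [h1, h1]
  exact (h0.isSymmSndFDerivAt (by simp)) b c

/-- the third derivatives commute -/
lemma PP_symm3 (hD : IsOpen D) (hF : ContDiffOn ℝ ∞ F D) {y : E} (hy : y ∈ D) (a b c : E) :
    fderiv ℝ (PP F b c) y a = fderiv ℝ (PP F a c) y b :=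
  PP_symm hD (smooth_F1 hD hF c) hy a b

/-- The Christoffel symbols of first kind. -/
lemma chr_eq (hD : IsOpen D) (hF : ContDiffOn ℝ ∞ F D) (hH : ContDiffOn ℝ ∞ H D)
    (hs : ∀ y ∈ D, ∀ s w, H y s w = H y w s) {y : E} (hy : y ∈ D) (b c d : E) :
    (fderiv ℝ (fun y => H y (fderiv ℝ F y c) (fderiv ℝ F y d)) y b +
      fderiv ℝ (fun y => H y (fderiv ℝ F y b) (fderiv ℝ F y d)) y c -
      fderiv ℝ (fun y => H y (fderiv ℝ F y b) (fderiv ℝ F y c)) y d) / 2 =
      H y (PP F b c y) (fderiv ℝ F y d) + TT F H b c d y := by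
  have hH1 := dAt hD hH hy
  have h1 : ∀ c : E, DifferentiableAt ℝ (fun y => fderiv ℝ F y c) y := fun c =>
    dAt hD (smooth_F1 hD hF c) hy
  rw [fderiv_H hH1 (h1 c) (h1 d), fderiv_H hH1 (h1 b) (h1 d), fderiv_H hH1 (h1 b) (h1 c)]
  have e : ∀ b c : E, fderiv ℝ (fun y => fderiv ℝ F y c) y b = PP F b c y := fun b c => rfl
  rw [e, e, e, e, e, e, PP_symm hD hF hy c b, PP_symm hD hF hy d b, PP_symm hD hF hy d c,
    hs y hy (fderiv ℝ F y c) (PP F b d y), hs y hy (fderiv ℝ F y b) (PP F c d y)]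
  unfold TT
  ring

/-- **The curvature is the divergence of a bounded function up to lower order terms.** -/
lemma curv_eq (hD : IsOpen D) (hF : ContDiffOn ℝ ∞ F D) (hH : ContDiffOn ℝ ∞ H D)
    {Γ : E → E → E → E} {y : E} (hy : y ∈ D) (a b c d : E) :
    fderiv ℝ (fun y => H y (PP F b c y) (fderiv ℝ F y d) + TT F H b c d y) y a -
      fderiv ℝ (fun y => H y (PP F a c y) (fderiv ℝ F y d) + TT F H a c d y) y b -
      H y (fderiv ℝ F y (Γ y b c)) (fderiv ℝ F y (Γ y a d)) +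
      H y (fderiv ℝ F y (Γ y a c)) (fderiv ℝ F y (Γ y b d)) =
    fderiv ℝ (TT F H b c d) y a - fderiv ℝ (TT F H a c d) y b +
      (fderiv ℝ H y a (PP F b c y) (fderiv ℝ F y d) - fderiv ℝ H y b (PP F a c y) (fderiv ℝ F y d)
      - H y (PP F b c y) (fderiv ℝ F y (Γ y a d) - PP F a d y)
      - H y (fderiv ℝ F y (Γ y b c) - PP F b c y) (PP F a d y)
      - H y (fderiv ℝ F y (Γ y b c) - PP F b c y) (fderiv ℝ F y (Γ y a d) - PP F a d y)
      + H y (PP F a c y) (fderiv ℝ F y (Γ y b d) - PP F b d y)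
      + H y (fderiv ℝ F y (Γ y a c) - PP F a c y) (PP F b d y)
      + H y (fderiv ℝ F y (Γ y a c) - PP F a c y) (fderiv ℝ F y (Γ y b d) - PP F b d y)) := by
  have hH1 := dAt hD hH hy
  have h1 : ∀ c : E, DifferentiableAt ℝ (fun y => fderiv ℝ F y c) y := fun c =>
    dAt hD (smooth_F1 hD hF c) hy
  have h2 : ∀ b c : E, DifferentiableAt ℝ (fun y => PP F b c y) y := fun b c =>
    dAt hD (smooth_PP hD hF b c) hy
  have h3 : ∀ b c d : E, DifferentiableAt ℝ (fun y => TT F H b c d y) y := fun b c d =>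
    dAt hD (smooth_TT hD hF hH b c d) hy
  have h4 : ∀ b c d : E, DifferentiableAt ℝ (fun y => H y (PP F b c y) (fderiv ℝ F y d)) y :=
    fun b c d => (hH1.clm_apply (h2 b c)).clm_apply (h1 d)
  have h5 : ∀ a b c d : E, fderiv ℝ
      (fun y => H y (PP F b c y) (fderiv ℝ F y d) + TT F H b c d y) y a =
      fderiv ℝ H y a (PP F b c y) (fderiv ℝ F y d) + H y (fderiv ℝ (PP F b c) y a) (fderiv ℝ F y d)
      + H y (PP F b c y) (PP F a d y) + fderiv ℝ (TT F H b c d) y a := by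
    intro a b c d
    rw [fderiv_fun_add (h4 b c d) (h3 b c d), _root_.add_apply, fderiv_H hH1 (h2 b c) (h1 d)]
    rfl
  rw [h5, h5, PP_symm3 hD hF hy a b c]
  simp only [map_sub, _root_.sub_apply]
  ring

end

end Vale.Agent.P354k
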