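import Vale.Agent.P354k.Calc

set_option linter.unusedSectionVars false
set_option maxSynthPendingDepth 3

open MeasureTheory Set Filter Topology
open scoped ContDiff

namespace Vale.Agent.P354k

section

variable {E E' : Type*} [NormedAddCommGroup E] [NormedSpace ℝ E]
  [NormedAddCommGroup E'] [NormedSpace ℝ E']

/-- The curvature. -/
noncomputable def Riem (g : E → E → E → ℝ) (Γ : E → E → E → E) (x a b c d : E) : ℝ :=
  lineDeriv ℝ (fun y => g y (Γ y b c) d) x a - lineDeriv ℝ (fun y => g y (Γ y a c) d) x b -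
    g x (Γ x b c) (Γ x a d) + g x (Γ x a c) (Γ x b d)

/-- The connection. -/
def Conn (g : E → E → E → ℝ) (Γ : E → E → E → E) (x : E) : Prop :=
  ∀ a b c, 2 * g x (Γ x a b) c = lineDeriv ℝ (fun y => g y b c) x a +
    lineDeriv ℝ (fun y => g y a c) x b - lineDeriv ℝ (fun y => g y a b) x c

/-- The metric g is the pull back of H by F. -/
structure CB (g : E → E → E → ℝ) (F : E → E') (H : E → E' →L[ℝ] E' →L[ℝ] ℝ) (D : Set E) :
    Prop where
  openD : IsOpen D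
  smF : ContDiffOn ℝ ∞ F D
  smH : ContDiffOn ℝ ∞ H D
  symm : ∀ y ∈ D, ∀ s w, H y s w = H y w s
  iso : ∀ y ∈ D, ∀ a b, g y a b = H y (fderiv ℝ F y a) (fderiv ℝ F y b)

/-- the lower order terms of the curvature -/
noncomputable def QQ (F : E → E') (H : E → E' →L[ℝ] E' →L[ℝ] ℝ) (Γ : E → E → E → E)
    (a b c d y : E) : ℝ :=
  fderiv ℝ H y a (PP F b c y) (fderiv ℝ F y d) - fderiv ℝ H y b (PP F a c y) (fderiv ℝ F y d)
      - H y (PP F b c y) (fderiv ℝ F y (Γ y a d) - PP F a d y)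
      - H y (fderiv ℝ F y (Γ y b c) - PP F b c y) (PP F a d y)
      - H y (fderiv ℝ F y (Γ y b c) - PP F b c y) (fderiv ℝ F y (Γ y a d) - PP F a d y)
      + H y (PP F a c y) (fderiv ℝ F y (Γ y b d) - PP F b d y)
      + H y (fderiv ℝ F y (Γ y a c) - PP F a c y) (PP F b d y)
      + H y (fderiv ℝ F y (Γ y a c) - PP F a c y) (fderiv ℝ F y (Γ y b d) - PP F b d y)

/-- second derivative along fields -/
noncomputable def Ph (F : E → E') (X Y : E → E) (y : E) : E' :=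
  fderiv ℝ (fun z => fderiv ℝ F z (Y z)) y (X y)

/-- the lower order terms of the curvature, along fields -/
noncomputable def QF (F : E → E') (H : E → E' →L[ℝ] E' →L[ℝ] ℝ) (Γ : E → E → E → E)
    (Xa Xb Xc Xd : E → E) (y : E) : ℝ :=
  fderiv ℝ H y (Xa y) (Ph F Xb Xc y) (fderiv ℝ F y (Xd y))
      - fderiv ℝ H y (Xb y) (Ph F Xa Xc y) (fderiv ℝ F y (Xd y))
      - H y (Ph F Xb Xc y) (fderiv ℝ F y (Γ y (Xa y) (Xd y)) - PP F (Xa y) (Xd y) y)
      - H y (fderiv ℝ F y (Γ y (Xb y) (Xc y)) - PP F (Xb y) (Xc y) y) (Ph F Xa Xd y)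
      - H y (fderiv ℝ F y (Γ y (Xb y) (Xc y)) - PP F (Xb y) (Xc y) y)
          (fderiv ℝ F y (Γ y (Xa y) (Xd y)) - PP F (Xa y) (Xd y) y)
      + H y (Ph F Xa Xc y) (fderiv ℝ F y (Γ y (Xb y) (Xd y)) - PP F (Xb y) (Xd y) y)
      + H y (fderiv ℝ F y (Γ y (Xa y) (Xc y)) - PP F (Xa y) (Xc y) y) (Ph F Xb Xd y)
      + H y (fderiv ℝ F y (Γ y (Xa y) (Xc y)) - PP F (Xa y) (Xc y) y)
          (fderiv ℝ F y (Γ y (Xb y) (Xd y)) - PP F (Xb y) (Xd y) y)

variable {g : E → E → E → ℝ} {F : E → E'} {H : E → E' →L[ℝ] E' →L[ℝ] ℝ} {D : Set E}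
  {Γ : E → E → E → E}

namespace CB

lemma gam (h : CB g F H D) (hΓ : ∀ y ∈ D, Conn g Γ y) {y : E} (hy : y ∈ D) (b c d : E) :
    H y (fderiv ℝ F y (Γ y b c)) (fderiv ℝ F y d) =
      H y (PP F b c y) (fderiv ℝ F y d) + TT F H b c d y := by
  have hev : ∀ a b : E, (fun y => g y a b) =ᶠ[𝓝 y]
      fun y => H y (fderiv ℝ F y a) (fderiv ℝ F y b) := by
    intro a b
    filter_upwards [h.openD.mem_nhds hy] with z hz
    exact h.iso z hz a b
  have hd : ∀ a b v : E, lineDeriv ℝ (fun y => g y a b) y v =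
      fderiv ℝ (fun y => H y (fderiv ℝ F y a) (fderiv ℝ F y b)) y v := by
    intro a b v
    rw [(hev a b).lineDeriv_eq]
    exact (((dAt h.openD h.smH hy).clm_apply (dAt h.openD (smooth_F1 h.openD h.smF a) hy)).clm_apply
      (dAt h.openD (smooth_F1 h.openD h.smF b) hy)).lineDeriv_eq_fderiv
  have h1 := hΓ y hy b c d
  rw [hd, hd, hd] at h1
  have h2 := chr_eq h.openD h.smF h.smH h.symm hy b c d
  rw [← h.iso y hy (Γ y b c) d]
  linarith

/-- The curvature, up to lower order terms. -/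
lemma riem_eq (h : CB g F H D) (hΓ : ∀ y ∈ D, Conn g Γ y) {y : E} (hy : y ∈ D)
    (a b c d : E) : Riem g Γ y a b c d =
      fderiv ℝ (TT F H b c d) y a - fderiv ℝ (TT F H a c d) y b + QQ F H Γ a b c d y := by
  have h1 : ∀ b c d v : E, lineDeriv ℝ (fun y => g y (Γ y b c) d) y v =
      fderiv ℝ (fun y => H y (PP F b c y) (fderiv ℝ F y d) + TT F H b c d y) y v := by
    intro b c d v
    have hev : (fun y => g y (Γ y b c) d) =ᶠ[𝓝 y]
        fun y => H y (PP F b c y) (fderiv ℝ F y d) + TT F H b c d y := by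
      filter_upwards [h.openD.mem_nhds hy] with z hz
      rw [h.iso z hz, h.gam hΓ hz]
    rw [hev.lineDeriv_eq]
    exact ((((dAt h.openD h.smH hy).clm_apply
      (dAt h.openD (smooth_PP h.openD h.smF b c) hy)).clm_apply
      (dAt h.openD (smooth_F1 h.openD h.smF d) hy)).add
      (dAt h.openD (smooth_TT h.openD h.smF h.smH b c d) hy)).lineDeriv_eq_fderiv
  unfold Riem
  rw [h1, h1, h.iso y hy, h.iso y hy]
  exact curv_eq h.openD h.smF h.smH hy a b c d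

lemma DH_symm (h : CB g F H D) {y : E} (hy : y ∈ D) (b : E) (s w : E') :
    fderiv ℝ H y b s w = fderiv ℝ H y b w s := by
  have hH := dAt h.openD h.smH hy
  have h1 : ∀ s w : E', fderiv ℝ (fun y => H y s w) y b = fderiv ℝ H y b s w := by
    intro s w
    rw [fderiv_H hH (differentiableAt_const s) (differentiableAt_const w)]
    simp
  have h2 : (fun y => H y s w) =ᶠ[𝓝 y] fun y => H y w s := by
    filter_upwards [h.openD.mem_nhds hy] with z hz
    exact h.symm z hz s w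
  rw [← h1, ← h1, h2.fderiv_eq]

lemma TT_add (h : CB g F H D) {y : E} (hy : y ∈ D) (b w d : E) :
    TT F H b w d y + TT F H b d w y = fderiv ℝ H y b (fderiv ℝ F y w) (fderiv ℝ F y d) := by
  unfold TT
  rw [h.DH_symm hy b (fderiv ℝ F y d) (fderiv ℝ F y w)]
  ring

end CB

lemma smooth_F2 (hD : IsOpen D) (hF : ContDiffOn ℝ ∞ F D) {X : E → E}
    (hX : ContDiffOn ℝ ∞ X D) : ContDiffOn ℝ ∞ (fun y => fderiv ℝ F y (X y)) D :=
  (hF.fderiv_of_isOpen hD (m := ∞) (by simp)).clm_apply hX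

lemma smooth_TF (hD : IsOpen D) (hF : ContDiffOn ℝ ∞ F D) (hH : ContDiffOn ℝ ∞ H D)
    {X Y Z : E → E} (hX : ContDiffOn ℝ ∞ X D) (hY : ContDiffOn ℝ ∞ Y D)
    (hZ : ContDiffOn ℝ ∞ Z D) :
    ContDiffOn ℝ ∞ (fun y => TT F H (X y) (Y y) (Z y) y) D := by
  have h1 : ∀ {X Y Z : E → E}, ContDiffOn ℝ ∞ X D → ContDiffOn ℝ ∞ Y D → ContDiffOn ℝ ∞ Z D →
      ContDiffOn ℝ ∞ (fun y => fderiv ℝ H y (X y) (fderiv ℝ F y (Y y)) (fderiv ℝ F y (Z y))) D :=
    fun hX hY hZ => ((smooth_F2 hD hH hX).clm_apply (smooth_F2 hD hF hY)).clm_apply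
      (smooth_F2 hD hF hZ)
  exact (((h1 hX hY hZ).add (h1 hY hX hZ)).sub (h1 hZ hX hY)).div_const 2

/-- derivative along a field -/
lemma fderiv_F2 (hD : IsOpen D) (hF : ContDiffOn ℝ ∞ F D) {X : E → E} {y : E} (hy : y ∈ D)
    (hX : DifferentiableAt ℝ X y) (v : E) :
    fderiv ℝ (fun z => fderiv ℝ F z (X z)) y v = PP F v (X y) y + fderiv ℝ F y (fderiv ℝ X y v) := by
  have hd : DifferentiableAt ℝ (fderiv ℝ F) y :=
    dAt hD (hF.fderiv_of_isOpen hD (m := ∞) (by simp)) hy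
  have h1 := hd.hasFDerivAt.clm_apply hX.hasFDerivAt
  have h2 := hd.hasFDerivAt.clm_apply (hasFDerivAt_const (X y) y)
  unfold PP
  rw [h1.fderiv, h2.fderiv]
  simp
  abel

/-- product rule for one term -/
lemma fderiv_one (hD : IsOpen D) (hF : ContDiffOn ℝ ∞ F D) (hH : ContDiffOn ℝ ∞ H D)
    {X Y Z : E → E} {y : E} (hy : y ∈ D) (hX : DifferentiableAt ℝ X y)
    (hY : DifferentiableAt ℝ Y y) (hZ : DifferentiableAt ℝ Z y) (v : E) :
    fderiv ℝ (fun y => fderiv ℝ H y (X y) (fderiv ℝ F y (Y y)) (fderiv ℝ F y (Z y))) y v =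
      PP H v (X y) y (fderiv ℝ F y (Y y)) (fderiv ℝ F y (Z y)) +
      fderiv ℝ H y (fderiv ℝ X y v) (fderiv ℝ F y (Y y)) (fderiv ℝ F y (Z y)) +
      fderiv ℝ H y (X y) (PP F v (Y y) y + fderiv ℝ F y (fderiv ℝ Y y v)) (fderiv ℝ F y (Z y)) +
      fderiv ℝ H y (X y) (fderiv ℝ F y (Y y)) (PP F v (Z y) y + fderiv ℝ F y (fderiv ℝ Z y v)) := by
  have hFd : DifferentiableAt ℝ (fderiv ℝ F) y :=
    dAt hD (hF.fderiv_of_isOpen hD (m := ∞) (by simp)) hy
  have hHd : DifferentiableAt ℝ (fderiv ℝ H) y :=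
    dAt hD (hH.fderiv_of_isOpen hD (m := ∞) (by simp)) hy
  have h1 : DifferentiableAt ℝ (fun y => fderiv ℝ H y (X y)) y := hHd.clm_apply hX
  have h2 : ∀ {Y : E → E}, DifferentiableAt ℝ Y y →
      DifferentiableAt ℝ (fun y => fderiv ℝ F y (Y y)) y := fun hY => hFd.clm_apply hY
  rw [fderiv_H h1 (h2 hY) (h2 hZ), fderiv_F2 hD hH hy hX, fderiv_F2 hD hF hy hY,
    fderiv_F2 hD hF hy hZ]
  simp only [_root_.add_apply]

lemma dTF (hD : IsOpen D) (hF : ContDiffOn ℝ ∞ F D) (hH : ContDiffOn ℝ ∞ H D)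
    {X Y Z : E → E} (hX : ContDiffOn ℝ ∞ X D) (hY : ContDiffOn ℝ ∞ Y D)
    (hZ : ContDiffOn ℝ ∞ Z D) {y : E} (hy : y ∈ D) (v : E) :
    fderiv ℝ (fun y => TT F H (X y) (Y y) (Z y) y) y v =
      fderiv ℝ (TT F H (X y) (Y y) (Z y)) y v + TT F H (fderiv ℝ X y v) (Y y) (Z y) y +
      TT F H (X y) (fderiv ℝ Y y v) (Z y) y + TT F H (X y) (Y y) (fderiv ℝ Z y v) y := by
  have s1 : ∀ {X Y Z : E → E}, ContDiffOn ℝ ∞ X D → ContDiffOn ℝ ∞ Y D → ContDiffOn ℝ ∞ Z D →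
      DifferentiableAt ℝ
        (fun y => fderiv ℝ H y (X y) (fderiv ℝ F y (Y y)) (fderiv ℝ F y (Z y))) y :=
    fun hX hY hZ => dAt hD (((smooth_F2 hD hH hX).clm_apply (smooth_F2 hD hF hY)).clm_apply
      (smooth_F2 hD hF hZ)) hy
  have key : ∀ {X Y Z : E → E}, ContDiffOn ℝ ∞ X D → ContDiffOn ℝ ∞ Y D → ContDiffOn ℝ ∞ Z D →
      fderiv ℝ (fun y => TT F H (X y) (Y y) (Z y) y) y v =
      (fderiv ℝ (fun y => fderiv ℝ H y (X y) (fderiv ℝ F y (Y y)) (fderiv ℝ F y (Z y))) y v +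
      fderiv ℝ (fun y => fderiv ℝ H y (Y y) (fderiv ℝ F y (X y)) (fderiv ℝ F y (Z y))) y v -
      fderiv ℝ (fun y => fderiv ℝ H y (Z y) (fderiv ℝ F y (X y)) (fderiv ℝ F y (Y y))) y v) / 2 := by
    intro X Y Z hX hY hZ
    have h1 := (((s1 hX hY hZ).hasFDerivAt.add (s1 hY hX hZ).hasFDerivAt).sub
      (s1 hZ hX hY).hasFDerivAt).const_mul (2:ℝ)⁻¹
    have h2 : (fun y => TT F H (X y) (Y y) (Z y) y) = fun y => (2:ℝ)⁻¹ *
        ((fderiv ℝ H y (X y) (fderiv ℝ F y (Y y)) (fderiv ℝ F y (Z y)) +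
        fderiv ℝ H y (Y y) (fderiv ℝ F y (X y)) (fderiv ℝ F y (Z y))) -
        fderiv ℝ H y (Z y) (fderiv ℝ F y (X y)) (fderiv ℝ F y (Y y))) := by
      funext y
      unfold TT
      ring
    rw [h2]
    refine (DFunLike.congr_fun h1.fderiv v).trans ?_
    simp only [_root_.smul_apply, _root_.sub_apply, _root_.add_apply, smul_eq_mul]
    ring
  have hXd := dAt hD hX hy
  have hYd := dAt hD hY hy
  have hZd := dAt hD hZ hy
  have hc := fun (x : E) => (contDiffOn_const : ContDiffOn ℝ ∞ (fun _ : E => x) D)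
  have e0 : fderiv ℝ (TT F H (X y) (Y y) (Z y)) y v =
      fderiv ℝ (fun z => TT F H ((fun _ => X y) z) ((fun _ => Y y) z) ((fun _ => Z y) z) z) y v :=
    rfl
  rw [e0, key hX hY hZ, key (hc (X y)) (hc (Y y)) (hc (Z y)),
    fderiv_one hD hF hH hy hXd hYd hZd, fderiv_one hD hF hH hy hYd hXd hZd,
    fderiv_one hD hF hH hy hZd hXd hYd,
    fderiv_one hD hF hH hy (differentiableAt_const _) (differentiableAt_const _)
      (differentiableAt_const _),
    fderiv_one hD hF hH hy (differentiableAt_const _) (differentiableAt_const _)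
      (differentiableAt_const _),
    fderiv_one hD hF hH hy (differentiableAt_const _) (differentiableAt_const _)
      (differentiableAt_const _)]
  unfold TT
  simp only [fderiv_fun_const, Pi.zero_apply, _root_.zero_apply, map_zero, add_zero, map_add,
    _root_.add_apply]
  ring

/-- **The curvature along fields.** -/
theorem CB.riem_F (h : CB g F H D) (hΓ : ∀ y ∈ D, Conn g Γ y) {Xa Xb Xc Xd : E → E}
    (ha : ContDiffOn ℝ ∞ Xa D) (hb : ContDiffOn ℝ ∞ Xb D) (hc : ContDiffOn ℝ ∞ Xc D)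
    (hd : ContDiffOn ℝ ∞ Xd D) {y : E} (hy : y ∈ D) :
    Riem g Γ y (Xa y) (Xb y) (Xc y) (Xd y) =
      fderiv ℝ (fun y => TT F H (Xb y) (Xc y) (Xd y) y) y (Xa y) -
      fderiv ℝ (fun y => TT F H (Xa y) (Xc y) (Xd y) y) y (Xb y) -
      TT F H (fderiv ℝ Xb y (Xa y) - fderiv ℝ Xa y (Xb y)) (Xc y) (Xd y) y +
      QF F H Γ Xa Xb Xc Xd y := by
  have hS : ∀ b c d : E, H y (fderiv ℝ F y (Γ y b c) - PP F b c y) (fderiv ℝ F y d) =
      TT F H b c d y := by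
    intro b c d
    rw [map_sub, _root_.sub_apply, h.gam hΓ hy b c d]
    ring
  have hS' : ∀ b c d : E, H y (fderiv ℝ F y d) (fderiv ℝ F y (Γ y b c) - PP F b c y) =
      TT F H b c d y := by
    intro b c d
    rw [h.symm y hy, hS]
  have hP : ∀ {X Y : E → E}, DifferentiableAt ℝ Y y →
      Ph F X Y y = PP F (X y) (Y y) y + fderiv ℝ F y (fderiv ℝ Y y (X y)) := by
    intro X Y hY
    exact fderiv_F2 h.openD h.smF hy hY (X y)
  have hcd := dAt h.openD hc hy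
  have hdd := dAt h.openD hd hy
  have t1 := h.TT_add hy (Xb y) (fderiv ℝ Xc y (Xa y)) (Xd y)
  have t2 := h.TT_add hy (Xa y) (fderiv ℝ Xc y (Xb y)) (Xd y)
  have hsub : ∀ b b' c d : E, TT F H (b - b') c d y = TT F H b c d y - TT F H b' c d y := by
    intro b b' c d
    unfold TT
    simp only [map_sub, _root_.sub_apply]
    ring
  rw [h.riem_eq hΓ hy, dTF h.openD h.smF h.smH hb hc hd hy, dTF h.openD h.smF h.smH ha hc hd hy,
    hsub]
  unfold QF QQ
  rw [hP hcd, hP hcd, hP hdd, hP hdd]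
  simp only [map_add, _root_.add_apply, hS, hS']
  linarith

end

end Vale.Agent.P354k
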