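import Vale.Agent.P354k.FD

set_option linter.unusedSectionVars false
set_option maxSynthPendingDepth 3

open scoped Manifold ContDiff
open MeasureTheory Set Topology Filter

namespace Vale.Agent.P354k

open Vale.Agent.P354p
open Vale.Agent.P354 (norm_P4_le)
open Vale.Agent.P354w (Coef)

section

variable {K : Coef} {x : P354w.P4} {C S : ℝ}

/-- the derivative of the metric without the derivatives of the shift -/
noncomputable def E0 (K : Coef) (x h a b : P354w.P4) : ℝ :=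
  - (fderiv ℝ K.om x h) * (a.2.1 * b.2.2.1 + a.2.2.1 * b.2.1)
    + (fderiv ℝ K.g11 x h) * (K.h1 x a * K.h1 x b)
    + (fderiv ℝ K.g12 x h) * (K.h1 x a * K.h2 x b + K.h2 x a * K.h1 x b)
    + (fderiv ℝ K.g22 x h) * (K.h2 x a * K.h2 x b)

/-- the metric of the spheres -/
noncomputable def IP (K : Coef) (x : P354w.P4) (p1 p2 q1 q2 : ℝ) : ℝ :=
  K.g11 x * (p1 * q1) + K.g12 x * (p1 * q2 + p2 * q1) + K.g22 x * (p2 * q2)

/-- antisymmetric derivatives of the shift -/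
noncomputable def kp (s : P354w.P4 → ℝ) (x a b : P354w.P4) : ℝ :=
  fderiv ℝ s x a * b.2.1 - fderiv ℝ s x b * a.2.1

/-- the formula of Koszul in the frame -/
lemma kos_id (hw1 : ∀ h, fderiv ℝ K.w1 x h = 0) (hw2 : ∀ h, fderiv ℝ K.w2 x h = 0)
    (b c d : P354w.P4) :
    (K.dgF x b c d + K.dgF x c b d - K.dgF x d b c) / 2 +
      K.gF x (c.2.1 * fderiv ℝ K.s1 x b, 0, 0, c.2.1 * fderiv ℝ K.s2 x b) d =
    (E0 K x b c d + E0 K x c b d - E0 K x d b c) / 2 +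
      (IP K x (kp K.s1 x b c) (kp K.s2 x b c) (K.h1 x d) (K.h2 x d) -
        IP K x (kp K.s1 x b d) (kp K.s2 x b d) (K.h1 x c) (K.h2 x c) -
        IP K x (kp K.s1 x c d) (kp K.s2 x c d) (K.h1 x b) (K.h2 x b)) / 2 := by
  have e1 : K.h1 x (c.2.1 * fderiv ℝ K.s1 x b, 0, 0, c.2.1 * fderiv ℝ K.s2 x b) =
      c.2.1 * fderiv ℝ K.s1 x b := by simp [Coef.h1]
  have e2 : K.h2 x (c.2.1 * fderiv ℝ K.s1 x b, 0, 0, c.2.1 * fderiv ℝ K.s2 x b) =
      c.2.1 * fderiv ℝ K.s2 x b := by simp [Coef.h2]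
  have e3 : K.gF x (c.2.1 * fderiv ℝ K.s1 x b, 0, 0, c.2.1 * fderiv ℝ K.s2 x b) d =
      IP K x (c.2.1 * fderiv ℝ K.s1 x b) (c.2.1 * fderiv ℝ K.s2 x b) (K.h1 x d) (K.h2 x d) := by
    unfold Coef.gF IP
    rw [e1, e2]
    ring
  rw [e3]
  unfold Coef.dgF Coef.d1 Coef.d2 E0 IP kp
  simp only [hw1, hw2]
  ring

lemma E0_le (h : Bdd K x C S) {v : P354w.P4} {m : ℝ}
    (h0 : |fderiv ℝ K.om x v| ≤ m) (h1 : |fderiv ℝ K.g11 x v| ≤ m)
    (h2 : |fderiv ℝ K.g12 x v| ≤ m) (h3 : |fderiv ℝ K.g22 x v| ≤ m) (a b : P354w.P4) :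
    |E0 K x v a b| ≤ 6 * (1 + 2 * S) ^ 2 * m * (‖a‖ * ‖b‖) := by
  have hS := h.S0
  have hm : 0 ≤ m := (abs_nonneg _).trans h0
  obtain ⟨a1, a2, a3, a4⟩ := le4 (a := a)
  obtain ⟨b1, b2, b3, b4⟩ := le4 (a := b)
  have ha1 := h1_le h.S0 h.s1 h.w1 a
  have ha2 := h2_le h.S0 h.s2 h.w2 a
  have hb1 := h1_le h.S0 h.s1 h.w1 b
  have hb2 := h2_le h.S0 h.s2 h.w2 b
  have t1 := mul3_le h0 a2 b3
  have t2 := mul3_le h0 a3 b2
  have t3 := mul3_le h1 ha1 hb1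
  have t4 := mul3_le h2 ha1 hb2
  have t5 := mul3_le h2 ha2 hb1
  have t6 := mul3_le h3 ha2 hb2
  have q1 : 1 ≤ (1 + 2 * S) ^ 2 := one_le_pow₀ (by linarith only [hS])
  have e : m * ((1 + 2 * S) * ‖a‖ * ((1 + 2 * S) * ‖b‖)) =
      (1 + 2 * S) ^ 2 * m * (‖a‖ * ‖b‖) := by ring
  rw [e] at t3 t4 t5 t6
  have t7 : m * (‖a‖ * ‖b‖) ≤ (1 + 2 * S) ^ 2 * m * (‖a‖ * ‖b‖) := by
    calc m * (‖a‖ * ‖b‖) = 1 * m * (‖a‖ * ‖b‖) := by ring
      _ ≤ _ := by gcongr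
  have e2 : E0 K x v a b = -(fderiv ℝ K.om x v * (a.2.1 * b.2.2.1)) -
      fderiv ℝ K.om x v * (a.2.2.1 * b.2.1) +
      fderiv ℝ K.g11 x v * (K.h1 x a * K.h1 x b) + fderiv ℝ K.g12 x v * (K.h1 x a * K.h2 x b) +
      fderiv ℝ K.g12 x v * (K.h2 x a * K.h1 x b) +
      fderiv ℝ K.g22 x v * (K.h2 x a * K.h2 x b) := by
    unfold E0; ring
  rw [e2]
  have e3 : 6 * (1 + 2 * S) ^ 2 * m * (‖a‖ * ‖b‖) =
    6 * ((1 + 2 * S) ^ 2 * m * (‖a‖ * ‖b‖)) := by ring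
  rw [e3]
  generalize (1 + 2 * S) ^ 2 * m * (‖a‖ * ‖b‖) = Z at *
  rw [abs_le] at t1 t2 t3 t4 t5 t6 ⊢
  constructor
  · linarith only [t1.2, t2.2, t3.1, t4.1, t5.1, t6.1, t7]
  · linarith only [t1.1, t2.1, t3.2, t4.2, t5.2, t6.2, t7]

lemma IP_le (h : Bdd K x C S) {p1 p2 m : ℝ} (hp1 : |p1| ≤ m) (hp2 : |p2| ≤ m)
    (a : P354w.P4) :
    |IP K x p1 p2 (K.h1 x a) (K.h2 x a)| ≤ 4 * C * (1 + 2 * S) * (m * ‖a‖) := by
  have ha1 := h1_le h.S0 h.s1 h.w1 a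
  have ha2 := h2_le h.S0 h.s2 h.w2 a
  have t3 := mul3_le h.g11 hp1 ha1
  have t4 := mul3_le h.g12 hp1 ha2
  have t5 := mul3_le h.g12 hp2 ha1
  have t6 := mul3_le h.g22 hp2 ha2
  have e2 : IP K x p1 p2 (K.h1 x a) (K.h2 x a) = K.g11 x * (p1 * K.h1 x a) +
      K.g12 x * (p1 * K.h2 x a) + K.g12 x * (p2 * K.h1 x a) + K.g22 x * (p2 * K.h2 x a) := by
    unfold IP; ring
  rw [e2]
  have e3 : 4 * C * (1 + 2 * S) * (m * ‖a‖) = 4 * (C * (m * ((1 + 2 * S) * ‖a‖))) := by ring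
  rw [e3]
  rw [abs_le] at t3 t4 t5 t6 ⊢
  constructor
  · linarith only [t3.1, t4.1, t5.1, t6.1]
  · linarith only [t3.2, t4.2, t5.2, t6.2]

end

section

variable {M : Spc} {e : M.Chart} {C : ℕ → R4 → ℝ} {z0 : R4} {r K : ℝ} {k : ℝ → ℝ}

lemma norm_dv : ‖dv‖ ≤ 1 := norm_P4_le.2 (by simp [dv])

lemma norm_flat (a : R4) : ‖a - a.2.1 • dv‖ ≤ 2 * ‖a‖ := by
  have ha2 : |a.2.1| ≤ ‖a‖ := le4.2.1
  refine (norm_sub_le _ _).trans ?_
  rw [norm_smul, Real.norm_eq_abs]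
  have := norm_dv
  have : |a.2.1| * ‖dv‖ ≤ ‖a‖ * 1 := by gcongr
  linarith

/-- all first derivatives of the coefficients of index at most 3 -/
lemma deriv_all (hB : FrontBox M e C z0 r K k) {x : R4} (hx : x ∈ nullBox z0 r) {i : ℕ}
    (hi : i < 4) (a : R4) :
    |deriv (C i) x a| ≤ 9 * K * (1 + k (cv x)) * ‖a‖ := by
  have hd := hB.diff hx i
  have hK := hB.K_one
  have hkx := ((hB.bounded hx).deriv_vu i hi).1
  have hk0 : 0 ≤ k (cv x) := (abs_nonneg _).trans hkx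
  have ha2 : |a.2.1| ≤ ‖a‖ := le4.2.1
  have e1 : a = (a - a.2.1 • dv) + a.2.1 • dv := by abel
  have h1 : |deriv (C i) x (a - a.2.1 • dv)| ≤ 3 * K * ‖a - a.2.1 • dv‖ :=
    hB.deriv_v0 hx (by omega) (by simp [cv, dv])
  have h2 := norm_flat a
  have h3 : |deriv (C i) x (a.2.1 • dv)| ≤ ‖a‖ * k (cv x) := by
    rw [deriv_smul hd, abs_mul]
    exact mul_le_mul ha2 hkx (abs_nonneg _) (norm_nonneg _)
  have h4 : |deriv (C i) x a| ≤ 3 * K * (2 * ‖a‖) + ‖a‖ * k (cv x) := by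
    conv_lhs => rw [e1, deriv_add hd]
    refine (abs_add_le _ _).trans (add_le_add (h1.trans ?_) h3)
    gcongr
  refine h4.trans ?_
  have hn := norm_nonneg a
  have q1 : 0 ≤ ‖a‖ * k (cv x) := by positivity
  have q2 : ‖a‖ * k (cv x) ≤ K * (‖a‖ * k (cv x)) := by nlinarith
  have q3 : 0 ≤ K * ‖a‖ := by positivity
  nlinarith

/-- the antisymmetric derivatives of the shift are bounded -/
lemma kp_box (hB : FrontBox M e C z0 r K k) {x : R4} (hx : x ∈ nullBox z0 r) {i : ℕ}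
    (hi : i < 6) (a b : R4) :
    |deriv (C i) x a * b.2.1 - deriv (C i) x b * a.2.1| ≤ 12 * K * (‖a‖ * ‖b‖) := by
  have hd := hB.diff hx i
  have hK := hB.K_one
  have ha2 : |a.2.1| ≤ ‖a‖ := le4.2.1
  have hb2 : |b.2.1| ≤ ‖b‖ := le4.2.1
  have key : ∀ a : R4, deriv (C i) x a = deriv (C i) x (a - a.2.1 • dv) +
      a.2.1 * deriv (C i) x dv := by
    intro a
    have e1 : a = (a - a.2.1 • dv) + a.2.1 • dv := by abel
    conv_lhs => rw [e1, deriv_add hd, deriv_smul hd]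
  have hle : ∀ a : R4, |deriv (C i) x (a - a.2.1 • dv)| ≤ 3 * K * (2 * ‖a‖) := by
    intro a
    refine (hB.deriv_v0 hx hi (by simp [cv, dv])).trans ?_
    have := norm_flat a
    gcongr
  have e2 : deriv (C i) x a * b.2.1 - deriv (C i) x b * a.2.1 =
      deriv (C i) x (a - a.2.1 • dv) * b.2.1 - deriv (C i) x (b - b.2.1 • dv) * a.2.1 := by
    rw [key a, key b]
    ring
  rw [e2]
  refine (abs_sub _ _).trans ?_
  rw [abs_mul, abs_mul]
  have q1 : |deriv (C i) x (a - a.2.1 • dv)| * |b.2.1| ≤ (3 * K * (2 * ‖a‖)) * ‖b‖ :=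
    mul_le_mul (hle a) hb2 (abs_nonneg _) (by positivity)
  have q2 : |deriv (C i) x (b - b.2.1 • dv)| * |a.2.1| ≤ (3 * K * (2 * ‖b‖)) * ‖a‖ :=
    mul_le_mul (hle b) ha2 (abs_nonneg _) (by positivity)
  linarith

/-- The derivative of the metric in the box. -/
lemma g_deriv (hB : FrontBox M e C z0 r K k) {x : R4} (hx : x ∈ nullBox z0 r) (a b c : R4) :
    fderiv ℝ (fun y => M.g e y b c) x a = (toW C).dgF (Sp x) (Sp a) (Sp b) (Sp c) := by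
  have hO := nullBox_isOpen z0 r
  have hd : ∀ i, DifferentiableAt ℝ (C i) x := hB.diff hx
  have hdK : (toW C).DiffAt (Sp x) := ⟨diff_Sp (hd 3), diff_Sp (hd 4), diff_Sp (hd 5),
    diff_Sp (hd 6), diff_Sp (hd 7), diff_Sp (hd 0), diff_Sp (hd 1), diff_Sp (hd 2)⟩
  have hl : HasDerivAt (fun τ : ℝ => x + τ • a) a 0 := by
    simpa using ((hasDerivAt_id (0:ℝ)).smul_const a).const_add x
  have hx0 : x + (0:ℝ) • a = x := by simp
  have hX : HasDerivAt (fun τ : ℝ => Sp (x + τ • a)) (Sp a) 0 :=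
    Sp.hasFDerivAt.comp_hasDerivAt (0:ℝ) hl
  have h1 := P354w.Coef.hasDerivAt_gF (toW C) (X := fun τ : ℝ => Sp (x + τ • a))
    (A := fun _ : ℝ => Sp b) (B := fun _ : ℝ => Sp c) (τ := 0) (by simp only [hx0]; exact hdK) hX
    (hasDerivAt_const _ _) (hasDerivAt_const _ _)
  have hz1 : ∀ w : P354w.P4, (toW C).gF (Sp x) 0 w = 0 := by
    intro w
    simp [P354w.Coef.gF, P354w.Coef.h1, P354w.Coef.h2]
  have hz2 : ∀ w : P354w.P4, (toW C).gF (Sp x) w 0 = 0 := by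
    intro w
    simp [P354w.Coef.gF, P354w.Coef.h1, P354w.Coef.h2]
  simp only [hx0, hz1, hz2, add_zero] at h1
  have hev : (fun y => M.g e y b c) =ᶠ[𝓝 x] fun y => (toW C).gF (Sp y) (Sp b) (Sp c) := by
    filter_upwards [hO.mem_nhds hx] with y hy
    rw [(hB.dn.box y hy).1, form_eqW]
  -- differentiability
  have hdiff : DifferentiableAt ℝ (fun y => (toW C).gF (Sp y) (Sp b) (Sp c)) x := by
    have e0 : ∀ i, DifferentiableAt ℝ (fun y => C i (Sp.symm (Sp y))) x := by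
      intro i
      simpa using hd i
    unfold P354w.Coef.gF P354w.Coef.h1 P354w.Coef.h2 toW
    simp only
    have i0 := e0 0
    have i1 := e0 1
    have i2 := e0 2
    have i3 := e0 3
    have i4 := e0 4
    have i5 := e0 5
    have i6 := e0 6
    have i7 := e0 7
    fun_prop
  rw [hev.fderiv_eq]
  have h3 : HasDerivAt (fun τ : ℝ => (toW C).gF (Sp (x + τ • a)) (Sp b) (Sp c))
      (fderiv ℝ (fun y => (toW C).gF (Sp y) (Sp b) (Sp c)) x a) 0 := by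
    have h4 : HasFDerivAt (fun y => (toW C).gF (Sp y) (Sp b) (Sp c))
        (fderiv ℝ (fun y => (toW C).gF (Sp y) (Sp b) (Sp c)) x) (x + (0:ℝ) • a) := by
      rw [hx0]; exact hdiff.hasFDerivAt
    exact h4.comp_hasDerivAt (0:ℝ) hl
  exact h3.unique h1

/-- the frame of the box -/
noncomputable abbrev ev (C : ℕ → R4 → ℝ) (y a : R4) : R4 := Ev (C 4) (C 5) (crd 1) (bas 2) (bas 3) y a

lemma ev_eq (C : ℕ → R4 → ℝ) (y a : R4) :
    ev C y a = (a.1, a.2.1, a.2.2.1 + a.2.1 * C 4 y, a.2.2.2 + a.2.1 * C 5 y) := by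
  unfold ev Ev
  rw [crd_one]
  ext <;> simp [bas]

lemma ev_norm (hB : FrontBox M e C z0 r K k) {x : R4} (hx : x ∈ nullBox z0 r) (a : R4) :
    ‖ev C x a‖ ≤ (1 + K) * ‖a‖ := by
  have h1 := hB.bounded hx
  have hK := h1.K_one
  obtain ⟨a1, a2, a3, a4⟩ := le4 (a := a)
  have m1 : |a.2.1 * C 4 x| ≤ ‖a‖ * K := by
    rw [abs_mul]; exact mul_le_mul a2 (h1.bound 4 (by norm_num)).1 (abs_nonneg _) (norm_nonneg _)
  have m2 : |a.2.1 * C 5 x| ≤ ‖a‖ * K := by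
    rw [abs_mul]; exact mul_le_mul a2 (h1.bound 5 (by norm_num)).1 (abs_nonneg _) (norm_nonneg _)
  have hn := norm_nonneg a
  have hKn : 0 ≤ K * ‖a‖ := by positivity
  rw [ev_eq, norm_P4_le]
  refine ⟨?_, ?_, ?_, ?_⟩
  · refine a1.trans ?_
    linarith
  · refine a2.trans ?_
    linarith
  · refine (abs_add_le _ _).trans ?_
    linarith
  · refine (abs_add_le _ _).trans ?_
    linarith

/-- derivative of a frame field -/
lemma ev_deriv (hB : FrontBox M e C z0 r K k) {x : R4} (hx : x ∈ nullBox z0 r) (a v : R4) :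
    fderiv ℝ (fun z => ev C z a) x v =
      (0, 0, a.2.1 * deriv (C 4) x v, a.2.1 * deriv (C 5) x v) := by
  have hd := hB.diff hx
  have h4 := hd 4
  have h5 := hd 5
  have h1 : HasFDerivAt (fun z => ev C z a)
      ((((a.2.1 • fderiv ℝ (C 4) x).smulRight (bas 2))) +
        ((a.2.1 • fderiv ℝ (C 5) x).smulRight (bas 3))) x := by
    unfold ev Ev
    have k1 := (h4.hasFDerivAt.const_mul (crd 1 a)).smul_const (bas 2)
    have k2 := (h5.hasFDerivAt.const_mul (crd 1 a)).smul_const (bas 3)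
    rw [crd_one] at k1 k2
    exact (k1.const_add a).add k2
  rw [h1.fderiv, deriv_eq h4, deriv_eq h5]
  simp [bas]

lemma ev_comm (hB : FrontBox M e C z0 r K k) {x : R4} (hx : x ∈ nullBox z0 r) (a b : R4) :
    ‖fderiv ℝ (fun z => ev C z b) x (ev C x a) - fderiv ℝ (fun z => ev C z a) x (ev C x b)‖ ≤
      12 * K * (1 + K) ^ 2 * (‖a‖ * ‖b‖) := by
  have hK := hB.K_one
  have hna := ev_norm hB hx a
  have hnb := ev_norm hB hx b
  rw [ev_deriv hB hx, ev_deriv hB hx]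
  have e1 : (ev C x a).2.1 = a.2.1 := by rw [ev_eq]
  have e2 : (ev C x b).2.1 = b.2.1 := by rw [ev_eq]
  have key : ∀ i, i < 6 → |b.2.1 * deriv (C i) x (ev C x a) - a.2.1 * deriv (C i) x (ev C x b)| ≤
      12 * K * (1 + K) ^ 2 * (‖a‖ * ‖b‖) := by
    intro i hi
    have h1 := kp_box hB hx hi (ev C x a) (ev C x b)
    rw [e1, e2] at h1
    have e3 : b.2.1 * deriv (C i) x (ev C x a) - a.2.1 * deriv (C i) x (ev C x b) =
        deriv (C i) x (ev C x a) * b.2.1 - deriv (C i) x (ev C x b) * a.2.1 := by ring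
    rw [e3]
    refine h1.trans ?_
    calc 12 * K * (‖ev C x a‖ * ‖ev C x b‖) ≤
        12 * K * (((1 + K) * ‖a‖) * ((1 + K) * ‖b‖)) := by gcongr
      _ = _ := by ring
  have h0 : (0:ℝ) ≤ 12 * K * (1 + K) ^ 2 * (‖a‖ * ‖b‖) := by positivity
  rw [norm_P4_le]
  refine ⟨?_, ?_, ?_, ?_⟩
  · simpa using h0
  · simpa using h0
  · exact key 4 (by norm_num)
  · exact key 5 (by norm_num)

/-- the connection in the frame is bounded -/
lemma ev_kos (hB : FrontBox M e C z0 r K k) {x : R4} (hx : x ∈ nullBox z0 r) (b c d : R4) :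
    |(fderiv ℝ (fun z => M.g e z (ev C x c) d) x (ev C x b) +
      fderiv ℝ (fun z => M.g e z (ev C x b) d) x (ev C x c) -
      fderiv ℝ (fun z => M.g e z (ev C x b) (ev C x c)) x d) / 2 +
      M.g e x (fderiv ℝ (fun z => ev C z c) x (ev C x b)) d| ≤
      (153 * K ^ 2 * (1 + 2 * K) ^ 2 * (1 + K) ^ 2) * (1 + k (cv x)) * (‖b‖ * ‖c‖ * ‖d‖) := by
  have hO := nullBox_isOpen z0 r
  have hK := hB.K_one
  have hK0 : 0 ≤ K := by linarith
  have hd := hB.diff hx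
  have hk0 : 0 ≤ k (cv x) := (abs_nonneg _).trans ((hB.bounded hx).deriv_vu 0 (by norm_num)).1
  have hbd := bddW hB hx
  have hf : ∀ (i : ℕ) (a : R4), fderiv ℝ (fun z => C i (Sp.symm z)) (Sp x) (Sp a) =
      deriv (C i) x a := by
    intro i a
    rw [fderiv_comp_Sp (hd i)]
    simp
  have hf' : ∀ (i : ℕ) (a : R4), fderiv ℝ (fun z => C i (Sp.symm z)) (Sp x) a =
      deriv (C i) x (Sp.symm a) := fun i a => fderiv_comp_Sp (hd i) a
  have hw : ∀ i, i = 6 ∨ i = 7 → ∀ a, fderiv ℝ (fun z => C i (Sp.symm z)) (Sp x) a = 0 := by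
    intro i hi a
    rw [hf' i a]
    have h2 : ∀ y ∈ nullBox z0 r, C i y = 0 := by
      rcases hi with rfl | rfl
      · exact fun y hy => (hB.h67 y hy).1
      · exact fun y hy => (hB.h67 y hy).2
    have h3 : C i =ᶠ[𝓝 x] fun _ => 0 := by
      filter_upwards [hO.mem_nhds hx] with y hy
      exact h2 y hy
    rw [deriv_eq (hd _), h3.fderiv_eq]
    simp
  set b' : R4 := ev C x b with hb'
  set c' : R4 := ev C x c with hc'
  have hnb : ‖b'‖ ≤ (1 + K) * ‖b‖ := ev_norm hB hx b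
  have hnc : ‖c'‖ ≤ (1 + K) * ‖c‖ := ev_norm hB hx c
  have ec : c'.2.1 = c.2.1 := by rw [hc', ev_eq]
  -- the formula of Koszul
  have hkos := kos_id (K := toW C) (x := Sp x) (hw 6 (by norm_num)) (hw 7 (by norm_num))
    (Sp b') (Sp c') (Sp d)
  have eN : (((Sp c').2.1 * fderiv ℝ (toW C).s1 (Sp x) (Sp b'), 0, 0,
      (Sp c').2.1 * fderiv ℝ (toW C).s2 (Sp x) (Sp b')) : P354w.P4) =
      Sp (fderiv ℝ (fun z => ev C z c) x b') := by
    have g1 : fderiv ℝ (toW C).s1 (Sp x) (Sp b') = deriv (C 4) x b' := hf 4 b'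
    have g2 : fderiv ℝ (toW C).s2 (Sp x) (Sp b') = deriv (C 5) x b' := hf 5 b'
    have g3 : (Sp c').2.1 = c.2.1 := ec
    rw [ev_deriv hB hx, g1, g2, g3, Sp_apply]
  rw [eN] at hkos
  rw [g_deriv hB hx, g_deriv hB hx, g_deriv hB hx, (hB.dn.box x hx).1, form_eqW, hkos]
  -- bounds
  have hm : ∀ v : R4, ∀ p q : R4, |E0 (toW C) (Sp x) (Sp v) (Sp p) (Sp q)| ≤
      6 * (1 + 2 * K) ^ 2 * (9 * K * (1 + k (cv x)) * ‖v‖) * (‖p‖ * ‖q‖) := by
    intro v p q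
    have h5 := E0_le hbd (v := Sp v) (m := 9 * K * (1 + k (cv x)) * ‖v‖)
      (by show |fderiv ℝ (fun z => C 3 (Sp.symm z)) (Sp x) (Sp v)| ≤ _
          rw [hf]; exact deriv_all hB hx (by norm_num) v)
      (by show |fderiv ℝ (fun z => C 0 (Sp.symm z)) (Sp x) (Sp v)| ≤ _
          rw [hf]; exact deriv_all hB hx (by norm_num) v)
      (by show |fderiv ℝ (fun z => C 1 (Sp.symm z)) (Sp x) (Sp v)| ≤ _
          rw [hf]; exact deriv_all hB hx (by norm_num) v)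
      (by show |fderiv ℝ (fun z => C 2 (Sp.symm z)) (Sp x) (Sp v)| ≤ _
          rw [hf]; exact deriv_all hB hx (by norm_num) v) (Sp p) (Sp q)
    rwa [norm_Sp, norm_Sp] at h5
  have hκ1 : ∀ p q : R4, |kp (toW C).s1 (Sp x) (Sp p) (Sp q)| ≤ 12 * K * (‖p‖ * ‖q‖) := by
    intro p q
    have g1 : fderiv ℝ (toW C).s1 (Sp x) (Sp p) = deriv (C 4) x p := hf 4 p
    have g2 : fderiv ℝ (toW C).s1 (Sp x) (Sp q) = deriv (C 4) x q := hf 4 q
    have h1 := kp_box hB hx (i := 4) (by norm_num) p q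
    unfold kp
    rw [g1, g2]
    exact h1
  have hκ2 : ∀ p q : R4, |kp (toW C).s2 (Sp x) (Sp p) (Sp q)| ≤ 12 * K * (‖p‖ * ‖q‖) := by
    intro p q
    have g1 : fderiv ℝ (toW C).s2 (Sp x) (Sp p) = deriv (C 5) x p := hf 5 p
    have g2 : fderiv ℝ (toW C).s2 (Sp x) (Sp q) = deriv (C 5) x q := hf 5 q
    have h1 := kp_box hB hx (i := 5) (by norm_num) p q
    unfold kp
    rw [g1, g2]
    exact h1
  have hI : ∀ p q s : R4, |IP (toW C) (Sp x) (kp (toW C).s1 (Sp x) (Sp p) (Sp q))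
      (kp (toW C).s2 (Sp x) (Sp p) (Sp q)) ((toW C).h1 (Sp x) (Sp s))
      ((toW C).h2 (Sp x) (Sp s))| ≤ 4 * K * (1 + 2 * K) * (12 * K * (‖p‖ * ‖q‖) * ‖s‖) := by
    intro p q s
    have h1 := IP_le hbd (hκ1 p q) (hκ2 p q) (Sp s)
    rwa [norm_Sp] at h1
  have a1 := hm b' c' d
  have a2 := hm c' b' d
  have a3 := hm d b' c'
  have a4 := hI b' c' d
  have a5 := hI b' d c'
  have a6 := hI c' d b'
  set n : ℝ := ‖b'‖ * ‖c'‖ * ‖d‖ with hn
  have hn0 : 0 ≤ n := by positivity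
  have hnn : n ≤ (1 + K) ^ 2 * (‖b‖ * ‖c‖ * ‖d‖) := by
    calc n ≤ ((1 + K) * ‖b‖) * ((1 + K) * ‖c‖) * ‖d‖ := by rw [hn]; gcongr
      _ = _ := by ring
  have e1 : 6 * (1 + 2 * K) ^ 2 * (9 * K * (1 + k (cv x)) * ‖b'‖) * (‖c'‖ * ‖d‖) =
      54 * K * (1 + 2 * K) ^ 2 * (1 + k (cv x)) * n := by rw [hn]; ring
  have e2 : 6 * (1 + 2 * K) ^ 2 * (9 * K * (1 + k (cv x)) * ‖c'‖) * (‖b'‖ * ‖d‖) =
      54 * K * (1 + 2 * K) ^ 2 * (1 + k (cv x)) * n := by rw [hn]; ring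
  have e3 : 6 * (1 + 2 * K) ^ 2 * (9 * K * (1 + k (cv x)) * ‖d‖) * (‖b'‖ * ‖c'‖) =
      54 * K * (1 + 2 * K) ^ 2 * (1 + k (cv x)) * n := by rw [hn]; ring
  have e4 : 4 * K * (1 + 2 * K) * (12 * K * (‖b'‖ * ‖c'‖) * ‖d‖) =
      48 * K ^ 2 * (1 + 2 * K) * n := by rw [hn]; ring
  have e5 : 4 * K * (1 + 2 * K) * (12 * K * (‖b'‖ * ‖d‖) * ‖c'‖) =
      48 * K ^ 2 * (1 + 2 * K) * n := by rw [hn]; ring
  have e6 : 4 * K * (1 + 2 * K) * (12 * K * (‖c'‖ * ‖d‖) * ‖b'‖) =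
      48 * K ^ 2 * (1 + 2 * K) * n := by rw [hn]; ring
  rw [e1] at a1
  rw [e2] at a2
  rw [e3] at a3
  rw [e4] at a4
  rw [e5] at a5
  rw [e6] at a6
  have r1 : 54 * K * (1 + 2 * K) ^ 2 * (1 + k (cv x)) * n ≤
      54 * (K ^ 2 * (1 + 2 * K) ^ 2 * (1 + k (cv x)) * n) := by
    have : K ≤ K ^ 2 := le_self_pow₀ hK (by norm_num)
    calc 54 * K * (1 + 2 * K) ^ 2 * (1 + k (cv x)) * n =
        54 * (K * (1 + 2 * K) ^ 2 * (1 + k (cv x)) * n) := by ring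
      _ ≤ _ := by gcongr
  have r2 : 48 * K ^ 2 * (1 + 2 * K) * n ≤
      48 * (K ^ 2 * (1 + 2 * K) ^ 2 * (1 + k (cv x)) * n) := by
    have h1 : 1 + 2 * K ≤ (1 + 2 * K) ^ 2 := le_self_pow₀ (by linarith) (by norm_num)
    have h2 : (1:ℝ) ≤ 1 + k (cv x) := by linarith
    calc 48 * K ^ 2 * (1 + 2 * K) * n = 48 * (K ^ 2 * (1 + 2 * K) * 1 * n) := by ring
      _ ≤ _ := by gcongr
  have r3 : 153 * (K ^ 2 * (1 + 2 * K) ^ 2 * (1 + k (cv x)) * n) ≤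
      153 * K ^ 2 * (1 + 2 * K) ^ 2 * (1 + K) ^ 2 * (1 + k (cv x)) * (‖b‖ * ‖c‖ * ‖d‖) := by
    calc 153 * (K ^ 2 * (1 + 2 * K) ^ 2 * (1 + k (cv x)) * n) ≤
        153 * (K ^ 2 * (1 + 2 * K) ^ 2 * (1 + k (cv x)) * ((1 + K) ^ 2 * (‖b‖ * ‖c‖ * ‖d‖))) := by
          gcongr
      _ = _ := by ring
  refine le_trans ?_ r3
  replace a1 := a1.trans r1
  replace a2 := a2.trans r1
  replace a3 := a3.trans r1
  replace a4 := a4.trans r2
  replace a5 := a5.trans r2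
  replace a6 := a6.trans r2
  generalize K ^ 2 * (1 + 2 * K) ^ 2 * (1 + k (cv x)) * n = Z at *
  rw [abs_le] at a1 a2 a3 a4 a5 a6 ⊢
  constructor
  · linarith only [a1.1, a2.1, a3.2, a4.1, a5.2, a6.2]
  · linarith only [a1.2, a2.2, a3.1, a4.2, a5.1, a6.1]

end

end Vale.Agent.P354k
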