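import Vale.Agent.P354a.A2
import Vale.Agent.P354p.FrontCore

set_option linter.unusedSectionVars false
set_option maxSynthPendingDepth 3

open Set MeasureTheory Filter Topology

namespace Vale.Agent.P354k

open Vale.Agent.P354w Vale.Agent.P354x PreHyp

section

variable {K : Coef} {x : P4} {C S : ℝ}

lemma le4 {a : P4} : |a.1| ≤ ‖a‖ ∧ |a.2.1| ≤ ‖a‖ ∧ |a.2.2.1| ≤ ‖a‖ ∧ |a.2.2.2| ≤ ‖a‖ :=
  P354.norm_P4_le.1 le_rfl

lemma h1_le (hC : 0 ≤ S) (s1 : |K.s1 x| ≤ S) (w1 : |K.w1 x| ≤ S) (a : P4) :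
    |K.h1 x a| ≤ (1 + 2 * S) * ‖a‖ := by
  obtain ⟨a1, a2, a3, a4⟩ := le4 (a := a)
  have k1 : |K.s1 x * a.2.1| ≤ S * ‖a‖ := by rw [abs_mul]; gcongr
  have k2 : |K.w1 x * a.2.2.1| ≤ S * ‖a‖ := by rw [abs_mul]; gcongr
  unfold Coef.h1
  rw [abs_le] at *
  constructor <;> linarith [a1.1, a1.2, k1.1, k1.2, k2.1, k2.2]

lemma h2_le (hC : 0 ≤ S) (s1 : |K.s2 x| ≤ S) (w1 : |K.w2 x| ≤ S) (a : P4) :
    |K.h2 x a| ≤ (1 + 2 * S) * ‖a‖ := by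
  obtain ⟨a1, a2, a3, a4⟩ := le4 (a := a)
  have k1 : |K.s2 x * a.2.1| ≤ S * ‖a‖ := by rw [abs_mul]; gcongr
  have k2 : |K.w2 x * a.2.2.1| ≤ S * ‖a‖ := by rw [abs_mul]; gcongr
  unfold Coef.h2
  rw [abs_le] at *
  constructor <;> linarith [a4.1, a4.2, k1.1, k1.2, k2.1, k2.2]

/-- bounds of the coefficients at a point -/
structure Bdd (K : Coef) (x : P4) (C S : ℝ) : Prop where
  C1 : 1 ≤ C
  S0 : 0 ≤ S
  om : |K.om x| ≤ C
  g11 : |K.g11 x| ≤ C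
  g12 : |K.g12 x| ≤ C
  g22 : |K.g22 x| ≤ C
  s1 : |K.s1 x| ≤ S
  s2 : |K.s2 x| ≤ S
  w1 : |K.w1 x| ≤ S
  w2 : |K.w2 x| ≤ S

lemma mul3_le {g p q G P Q : ℝ} (hg : |g| ≤ G) (hp : |p| ≤ P) (hq : |q| ≤ Q) :
    |g * (p * q)| ≤ G * (P * Q) := by
  have hG : 0 ≤ G := (abs_nonneg _).trans hg
  have hP : 0 ≤ P := (abs_nonneg _).trans hp
  rw [abs_mul, abs_mul]
  gcongr

lemma gF_le (h : Bdd K x C S) (a b : P4) :
    |K.gF x a b| ≤ 6 * C * (1 + 2 * S) ^ 2 * (‖a‖ * ‖b‖) := by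
  have hC0 : 0 ≤ C := by linarith [h.C1]
  have hS := h.S0
  obtain ⟨a1, a2, a3, a4⟩ := le4 (a := a)
  obtain ⟨b1, b2, b3, b4⟩ := le4 (a := b)
  have ha1 := h1_le h.S0 h.s1 h.w1 a
  have ha2 := h2_le h.S0 h.s2 h.w2 a
  have hb1 := h1_le h.S0 h.s1 h.w1 b
  have hb2 := h2_le h.S0 h.s2 h.w2 b
  have t1 := mul3_le h.om a2 b3
  have t2 := mul3_le h.om a3 b2
  have t3 := mul3_le h.g11 ha1 hb1
  have t4 := mul3_le h.g12 ha1 hb2
  have t5 := mul3_le h.g12 ha2 hb1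
  have t6 := mul3_le h.g22 ha2 hb2
  have e : C * ((1 + 2 * S) * ‖a‖ * ((1 + 2 * S) * ‖b‖)) =
      C * (1 + 2 * S) ^ 2 * (‖a‖ * ‖b‖) := by ring
  rw [e] at t3 t4 t5 t6
  have t7 : C * (‖a‖ * ‖b‖) ≤ C * (1 + 2 * S) ^ 2 * (‖a‖ * ‖b‖) := by
    have : 1 ≤ (1 + 2 * S) ^ 2 := by nlinarith
    calc C * (‖a‖ * ‖b‖) = C * 1 * (‖a‖ * ‖b‖) := by ring
      _ ≤ _ := by gcongr
  have e2 : K.gF x a b = -(K.om x * (a.2.1 * b.2.2.1)) - K.om x * (a.2.2.1 * b.2.1) +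
      K.g11 x * (K.h1 x a * K.h1 x b) + K.g12 x * (K.h1 x a * K.h2 x b) +
      K.g12 x * (K.h2 x a * K.h1 x b) + K.g22 x * (K.h2 x a * K.h2 x b) := by
    unfold Coef.gF; ring
  rw [e2]
  rw [abs_le] at t1 t2 t3 t4 t5 t6 ⊢
  constructor
  · linarith only [t1.2, t2.2, t3.1, t4.1, t5.1, t6.1, t7]
  · linarith only [t1.1, t2.1, t3.2, t4.2, t5.2, t6.2, t7]

/-- the derivative of the metric in a direction -/
lemma dgF_le (h : Bdd K x C S) {v : P4} {m : ℝ}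
    (h0 : |fderiv ℝ K.om x v| ≤ m) (h1 : |fderiv ℝ K.g11 x v| ≤ m)
    (h2 : |fderiv ℝ K.g12 x v| ≤ m) (h3 : |fderiv ℝ K.g22 x v| ≤ m)
    (h4 : |fderiv ℝ K.s1 x v| ≤ m) (h5 : |fderiv ℝ K.s2 x v| ≤ m)
    (h6 : |fderiv ℝ K.w1 x v| ≤ m) (h7 : |fderiv ℝ K.w2 x v| ≤ m) (a b : P4) :
    |K.dgF x v a b| ≤ 22 * C * (1 + 2 * S) ^ 2 * m * (‖a‖ * ‖b‖) := by
  have hC1 := h.C1
  have hC0 : 0 ≤ C := by linarith
  have hS := h.S0
  have hm : 0 ≤ m := (abs_nonneg _).trans h0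
  obtain ⟨a1, a2, a3, a4⟩ := le4 (a := a)
  obtain ⟨b1, b2, b3, b4⟩ := le4 (a := b)
  have ha1 := h1_le h.S0 h.s1 h.w1 a
  have ha2 := h2_le h.S0 h.s2 h.w2 a
  have hb1 := h1_le h.S0 h.s1 h.w1 b
  have hb2 := h2_le h.S0 h.s2 h.w2 b
  have hd1 : ∀ a : P4, |K.d1 x v a| ≤ 2 * m * ‖a‖ := by
    intro a
    obtain ⟨_, a2, a3, _⟩ := le4 (a := a)
    have k1 : |fderiv ℝ K.s1 x v * a.2.1| ≤ m * ‖a‖ := by rw [abs_mul]; gcongr
    have k2 : |fderiv ℝ K.w1 x v * a.2.2.1| ≤ m * ‖a‖ := by rw [abs_mul]; gcongr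
    unfold Coef.d1
    rw [abs_le] at *
    constructor <;> linarith [k1.1, k1.2, k2.1, k2.2]
  have hd2 : ∀ a : P4, |K.d2 x v a| ≤ 2 * m * ‖a‖ := by
    intro a
    obtain ⟨_, a2, a3, _⟩ := le4 (a := a)
    have k1 : |fderiv ℝ K.s2 x v * a.2.1| ≤ m * ‖a‖ := by rw [abs_mul]; gcongr
    have k2 : |fderiv ℝ K.w2 x v * a.2.2.1| ≤ m * ‖a‖ := by rw [abs_mul]; gcongr
    unfold Coef.d2
    rw [abs_le] at *
    constructor <;> linarith [k1.1, k1.2, k2.1, k2.2]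
  have t1 := mul3_le h0 a2 b3
  have t2 := mul3_le h0 a3 b2
  have t3 := mul3_le h1 ha1 hb1
  have t4 := mul3_le h2 ha1 hb2
  have t5 := mul3_le h2 ha2 hb1
  have t6 := mul3_le h3 ha2 hb2
  have u1 := mul3_le h.g11 (hd1 a) hb1
  have u2 := mul3_le h.g11 ha1 (hd1 b)
  have u3 := mul3_le h.g12 (hd1 a) hb2
  have u4 := mul3_le h.g12 ha1 (hd2 b)
  have u5 := mul3_le h.g12 (hd2 a) hb1
  have u6 := mul3_le h.g12 ha2 (hd1 b)
  have u7 := mul3_le h.g22 (hd2 a) hb2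
  have u8 := mul3_le h.g22 ha2 (hd2 b)
  set n : ℝ := ‖a‖ * ‖b‖ with hn
  have hn0 : 0 ≤ n := by positivity
  have q1 : 1 ≤ (1 + 2 * S) ^ 2 := one_le_pow₀ (by linarith only [hS])
  have q2 : 1 + 2 * S ≤ (1 + 2 * S) ^ 2 := le_self_pow₀ (by linarith only [hS]) (by norm_num)
  have r1 : m * n ≤ C * (1 + 2 * S) ^ 2 * m * n := by
    have : 1 ≤ C * (1 + 2 * S) ^ 2 := one_le_mul_of_one_le_of_one_le hC1 q1
    calc m * n = 1 * m * n := by ring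
      _ ≤ _ := by gcongr
  have r2 : m * ((1 + 2 * S) * ‖a‖ * ((1 + 2 * S) * ‖b‖)) ≤ C * (1 + 2 * S) ^ 2 * m * n := by
    calc m * ((1 + 2 * S) * ‖a‖ * ((1 + 2 * S) * ‖b‖)) = 1 * (1 + 2 * S) ^ 2 * m * n := by
          rw [hn]; ring
      _ ≤ _ := by gcongr
  have r3 : C * (2 * m * ‖a‖ * ((1 + 2 * S) * ‖b‖)) ≤ 2 * (C * (1 + 2 * S) ^ 2 * m * n) := by
    calc C * (2 * m * ‖a‖ * ((1 + 2 * S) * ‖b‖)) = 2 * (C * (1 + 2 * S) * m * n) := by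
          rw [hn]; ring
      _ ≤ _ := by gcongr
  have r4 : C * ((1 + 2 * S) * ‖a‖ * (2 * m * ‖b‖)) ≤ 2 * (C * (1 + 2 * S) ^ 2 * m * n) := by
    calc C * ((1 + 2 * S) * ‖a‖ * (2 * m * ‖b‖)) = 2 * (C * (1 + 2 * S) * m * n) := by
          rw [hn]; ring
      _ ≤ _ := by gcongr
  have e1 : m * (‖a‖ * ‖b‖) = m * n := rfl
  rw [e1] at t1 t2
  replace t1 := t1.trans r1
  replace t2 := t2.trans r1
  replace t3 := t3.trans r2
  replace t4 := t4.trans r2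
  replace t5 := t5.trans r2
  replace t6 := t6.trans r2
  replace u1 := u1.trans r3
  replace u2 := u2.trans r4
  replace u3 := u3.trans r3
  replace u4 := u4.trans r4
  replace u5 := u5.trans r3
  replace u6 := u6.trans r4
  replace u7 := u7.trans r3
  replace u8 := u8.trans r4
  have e2 : K.dgF x v a b = -(fderiv ℝ K.om x v * (a.2.1 * b.2.2.1)) -
      fderiv ℝ K.om x v * (a.2.2.1 * b.2.1) +
      fderiv ℝ K.g11 x v * (K.h1 x a * K.h1 x b) + fderiv ℝ K.g12 x v * (K.h1 x a * K.h2 x b) +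
      fderiv ℝ K.g12 x v * (K.h2 x a * K.h1 x b) + fderiv ℝ K.g22 x v * (K.h2 x a * K.h2 x b) -
      K.g11 x * (K.d1 x v a * K.h1 x b) - K.g11 x * (K.h1 x a * K.d1 x v b) -
      K.g12 x * (K.d1 x v a * K.h2 x b) - K.g12 x * (K.h1 x a * K.d2 x v b) -
      K.g12 x * (K.d2 x v a * K.h1 x b) - K.g12 x * (K.h2 x a * K.d1 x v b) -
      K.g22 x * (K.d2 x v a * K.h2 x b) - K.g22 x * (K.h2 x a * K.d2 x v b) := by
    unfold Coef.dgF; ring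
  have e3 : 22 * C * (1 + 2 * S) ^ 2 * m * n = 22 * (C * (1 + 2 * S) ^ 2 * m * n) := by ring
  rw [e2, e3]
  generalize C * (1 + 2 * S) ^ 2 * m * n = Z at *
  rw [abs_le] at t1 t2 t3 t4 t5 t6 u1 u2 u3 u4 u5 u6 u7 u8 ⊢
  constructor
  · linarith only [t1.2, t2.2, t3.1, t4.1, t5.1, t6.1, u1.2, u2.2, u3.2, u4.2, u5.2, u6.2, u7.2,
      u8.2]
  · linarith only [t1.1, t2.1, t3.2, t4.2, t5.2, t6.2, u1.1, u2.1, u3.1, u4.1, u5.1, u6.1, u7.1,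
      u8.1]

end

section

variable {K : Coef} {G : P4 → P4 →L[ℝ] P4 →L[ℝ] ℝ} {Psi : P4 → P4} {V : Set P4}
  {z : P4} {C S κ cv cw cu : ℝ}

/-- the vertical vector seen from the standard side -/
lemma PP_norm (h : PtHyp K G Psi V z C cv cw cu) (hb : Bdd K (Psi z) C S) (hκ : QQ Psi z ≤ κ) :
    ‖fderiv ℝ Psi z e1‖ ≤ (C + 2 * S + 1) * κ := by
  have hC := hb.C1
  have hS := hb.S0
  obtain ⟨k1, k2⟩ := h.abs_h_le
  have hb0 : 0 < (fderiv ℝ Psi z e1).2.1 := h.pos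
  have ha0 : 0 < (fderiv ℝ Psi z e1).2.2.1 := h.sq_le.2.1
  simp only [PtHyp.PP] at k1 k2
  unfold QQ at hκ
  set p : P4 := fderiv ℝ Psi z e1 with hp
  have hκ0 : 0 ≤ κ := by
    have : 0 < p.2.2.1 + p.2.1 := by linarith
    exact this.le.trans hκ
  have a1 : |p.2.1| ≤ κ := by
    rw [abs_of_pos hb0]
    have : p.2.2.1 + p.2.1 ≤ κ := hκ
    linarith
  have a2 : |p.2.2.1| ≤ κ := by
    rw [abs_of_pos ha0]
    have : p.2.2.1 + p.2.1 ≤ κ := hκ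
    linarith
  have k1' : |K.h1 (Psi z) p| ≤ C * κ := k1.trans (by gcongr)
  have k2' : |K.h2 (Psi z) p| ≤ C * κ := k2.trans (by gcongr)
  have m1 : |K.s1 (Psi z) * p.2.1| ≤ S * κ := by rw [abs_mul]; gcongr; exact hb.s1
  have m2 : |K.w1 (Psi z) * p.2.2.1| ≤ S * κ := by rw [abs_mul]; gcongr; exact hb.w1
  have m3 : |K.s2 (Psi z) * p.2.1| ≤ S * κ := by rw [abs_mul]; gcongr; exact hb.s2
  have m4 : |K.w2 (Psi z) * p.2.2.1| ≤ S * κ := by rw [abs_mul]; gcongr; exact hb.w2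
  have hSκ : 0 ≤ S * κ := by positivity
  have hCκ : 0 ≤ C * κ := by positivity
  have e1 : p.1 = K.h1 (Psi z) p + K.s1 (Psi z) * p.2.1 + K.w1 (Psi z) * p.2.2.1 := by
    unfold Coef.h1; ring
  have e2 : p.2.2.2 = K.h2 (Psi z) p + K.s2 (Psi z) * p.2.1 + K.w2 (Psi z) * p.2.2.1 := by
    unfold Coef.h2; ring
  rw [P354.norm_P4_le]
  refine ⟨?_, ?_, ?_, ?_⟩
  · rw [e1, abs_le] at *
    constructor <;> linarith [k1'.1, k1'.2, m1.1, m1.2, m2.1, m2.2]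
  · refine a1.trans ?_
    linarith
  · refine a2.trans ?_
    linarith
  · rw [e2, abs_le] at *
    constructor <;> linarith [k2'.1, k2'.2, m3.1, m3.2, m4.1, m4.2]

/-- preimages under the derivative are bounded -/
lemma pre_norm (h : PtHyp K G Psi V z C cv cw cu) (hb : Bdd K (Psi z) C S) (hκ1 : 1 ≤ κ)
    (hκ : QQ Psi z ≤ κ) (Z : P4) :
    ‖Z‖ ≤ 2 * C * (6 * C * (1 + 2 * S) ^ 2) * ((C + 2 * S + 1) * κ) * ‖fderiv ℝ Psi z Z‖ := by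
  have hC := hb.C1
  have hS := hb.S0
  have hC0 : 0 ≤ C := by linarith
  set w : P4 := fderiv ℝ Psi z Z with hw
  set M : ℝ := 6 * C * (1 + 2 * S) ^ 2 with hM
  set P0 : ℝ := (C + 2 * S + 1) * κ with hP0
  have hM1 : 1 ≤ M := by rw [hM]; nlinarith [sq_nonneg S]
  have hP1 : 1 ≤ P0 := by
    rw [hP0]
    have : 1 ≤ C + 2 * S + 1 := by linarith
    nlinarith
  have h1 := h.cone Z
  rw [h.iso.iso z h.mem, h.iso.iso z h.mem] at h1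
  have g1 := gF_le hb w w
  have g2 := gF_le hb w (fderiv ℝ Psi z e1)
  have hPP := PP_norm h hb hκ
  rw [← hM] at g1 g2
  have g2' : |K.gF (Psi z) w (fderiv ℝ Psi z e1)| ≤ M * (‖w‖ * P0) :=
    g2.trans (by gcongr)
  have g3 : (K.gF (Psi z) w (fderiv ℝ Psi z e1)) ^ 2 ≤ (M * (‖w‖ * P0)) ^ 2 := by
    rw [← sq_abs]
    exact pow_le_pow_left₀ (abs_nonneg _) g2' 2
  have hw0 := norm_nonneg w
  refine abs_le_of_sq_le_sq' (a := ‖Z‖) ?_ (by positivity) |>.2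
  calc ‖Z‖ ^ 2 ≤ C * K.gF (Psi z) w w + C * (K.gF (Psi z) w (fderiv ℝ Psi z e1)) ^ 2 := h1
    _ ≤ C * (M * (‖w‖ * ‖w‖)) + C * (M * (‖w‖ * P0)) ^ 2 := by
      gcongr
      exact (le_abs_self _).trans g1
    _ = (C * M + C * M ^ 2 * P0 ^ 2) * ‖w‖ ^ 2 := by ring
    _ ≤ (C ^ 2 * M ^ 2 * P0 ^ 2 + C ^ 2 * M ^ 2 * P0 ^ 2) * ‖w‖ ^ 2 := by
      have e1 : C * M ≤ C ^ 2 * M ^ 2 * P0 ^ 2 := by
        have hx : 1 ≤ C * M * P0 ^ 2 := by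
          have h2 : 1 ≤ C * M := by nlinarith
          have h3 : 1 ≤ P0 ^ 2 := by nlinarith
          nlinarith
        calc C * M = C * M * 1 := by ring
          _ ≤ C * M * (C * M * P0 ^ 2) := by gcongr
          _ = _ := by ring
      have e2 : C * M ^ 2 * P0 ^ 2 ≤ C ^ 2 * M ^ 2 * P0 ^ 2 := by
        gcongr
        nlinarith
      gcongr
    _ ≤ (2 * C * M * P0 * ‖w‖) ^ 2 := by
      have : 0 ≤ C ^ 2 * M ^ 2 * P0 ^ 2 * ‖w‖ ^ 2 := by positivity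
      nlinarith

/-- the derivative is bounded -/
lemma deriv_norm (h : PtHyp K G Psi V z C cv cw cu) (hb : Bdd K (Psi z) C S) {B1 gn : ℝ}
    (hB1 : 0 ≤ B1) (hgn : 0 ≤ gn)
    (hG : ∀ a b, |G z a b| ≤ gn * (‖a‖ * ‖b‖))
    (hpre : ∀ Z, ‖Z‖ ≤ B1 * ‖fderiv ℝ Psi z Z‖) (hsurj : ∀ w, ∃ Z, fderiv ℝ Psi z Z = w)
    (w : P4) : ‖fderiv ℝ Psi z w‖ ≤ 3 * C * (1 + S) ^ 2 * (gn * B1) * ‖w‖ := by
  have hC := hb.C1
  have hS := hb.S0
  have hC0 : 0 ≤ C := by linarith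
  set a : P4 := fderiv ℝ Psi z w with ha
  set X : ℝ := gn * B1 * ‖w‖ with hX
  have hX0 : 0 ≤ X := by positivity
  have key : ∀ b : P4, |K.gF (Psi z) b a| ≤ X * ‖b‖ := by
    intro b
    obtain ⟨Z, hZ⟩ := hsurj b
    have h1 := hG Z w
    rw [h.iso.iso z h.mem, hZ, ← ha] at h1
    have h2 := hpre Z
    rw [hZ] at h2
    calc |K.gF (Psi z) b a| ≤ gn * (‖Z‖ * ‖w‖) := h1
      _ ≤ gn * ((B1 * ‖b‖) * ‖w‖) := by gcongr
      _ = _ := by rw [hX]; ring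
  have hom := h.bd.om_lo
  have hompos : 0 < K.om (Psi z) := h.om_pos
  have ne3 : ‖e3 K (Psi z)‖ ≤ 1 + S := by
    rw [P354.norm_P4_le]
    refine ⟨?_, ?_, ?_, ?_⟩
    · show |K.w1 (Psi z)| ≤ _
      linarith [hb.w1]
    · show |(0:ℝ)| ≤ _
      rw [abs_zero]; linarith
    · show |(1:ℝ)| ≤ _
      rw [abs_one]; linarith
    · show |K.w2 (Psi z)| ≤ _
      linarith [hb.w2]
  have ne4 : ‖e4 K (Psi z)‖ ≤ 1 + S := by
    rw [P354.norm_P4_le]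
    refine ⟨?_, ?_, ?_, ?_⟩
    · show |K.s1 (Psi z)| ≤ _
      linarith [hb.s1]
    · show |(1:ℝ)| ≤ _
      rw [abs_one]; linarith
    · show |(0:ℝ)| ≤ _
      rw [abs_zero]; linarith
    · show |K.s2 (Psi z)| ≤ _
      linarith [hb.s2]
  have k3 := key (e3 K (Psi z))
  have k4 := key (e4 K (Psi z))
  rw [gF_e3] at k3
  rw [gF_e4] at k4
  have kk : ∀ t : ℝ, ∀ n : ℝ, |-K.om (Psi z) * t| ≤ X * n → n ≤ 1 + S → |t| ≤ C * (X * (1 + S)) := by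
    intro t n h1 h2
    rw [abs_mul, abs_neg, abs_of_pos hompos] at h1
    calc |t| = 1 * |t| := (one_mul _).symm
      _ ≤ (C * K.om (Psi z)) * |t| := by gcongr
      _ = C * (K.om (Psi z) * |t|) := by ring
      _ ≤ C * (X * n) := by gcongr
      _ ≤ _ := by gcongr
  have a2 : |a.2.1| ≤ C * (X * (1 + S)) := kk _ _ k3 ne3
  have a3 : |a.2.2.1| ≤ C * (X * (1 + S)) := kk _ _ k4 ne4
  set p : ℝ := K.h1 (Psi z) a with hp
  set q : ℝ := K.h2 (Psi z) a with hq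
  have hpq : max |p| |q| ≤ C * X := by
    set ρ : ℝ := max |p| |q| with hρ
    have hρ0 : 0 ≤ ρ := le_max_of_le_left (abs_nonneg _)
    have h1 := key (p, 0, 0, q)
    have h2 : K.gF (Psi z) (p, 0, 0, q) a = K.g11 (Psi z) * p ^ 2 + 2 * K.g12 (Psi z) * p * q +
        K.g22 (Psi z) * q ^ 2 := by
      have e1 : K.h1 (Psi z) (p, 0, 0, q) = p := by simp [Coef.h1]
      have e2 : K.h2 (Psi z) (p, 0, 0, q) = q := by simp [Coef.h2]
      unfold Coef.gF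
      rw [e1, e2, ← hp, ← hq]
      simp only
      ring
    have h3 : ‖((p, 0, 0, q) : P4)‖ ≤ ρ := by
      rw [P354.norm_P4_le]
      exact ⟨le_max_left _ _, by simpa using hρ0, by simpa using hρ0, le_max_right _ _⟩
    have h4 := h.bd.g_lo p q
    rw [h2] at h1
    have h5 : ρ ^ 2 ≤ p ^ 2 + q ^ 2 := by
      rcases max_choice |p| |q| with h6 | h6
      · rw [hρ, h6, sq_abs]; nlinarith [sq_nonneg q]
      · rw [hρ, h6, sq_abs]; nlinarith [sq_nonneg p]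
    have h6 : ρ ^ 2 ≤ C * X * ρ := by
      calc ρ ^ 2 ≤ _ := h5.trans h4
        _ ≤ C * (X * ‖((p, 0, 0, q) : P4)‖) := by
          gcongr
          exact (le_abs_self _).trans h1
        _ ≤ C * (X * ρ) := by gcongr
        _ = _ := by ring
    by_contra hcon
    push Not at hcon
    have h7 : 0 < ρ := lt_of_le_of_lt (by positivity) hcon
    nlinarith
  have hp1 : |p| ≤ C * X := (le_max_left _ _).trans hpq
  have hq1 : |q| ≤ C * X := (le_max_right _ _).trans hpq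
  have m1 : |K.s1 (Psi z) * a.2.1| ≤ S * (C * (X * (1 + S))) := by rw [abs_mul]; gcongr; exact hb.s1
  have m2 : |K.w1 (Psi z) * a.2.2.1| ≤ S * (C * (X * (1 + S))) := by
    rw [abs_mul]; gcongr; exact hb.w1
  have m3 : |K.s2 (Psi z) * a.2.1| ≤ S * (C * (X * (1 + S))) := by rw [abs_mul]; gcongr; exact hb.s2
  have m4 : |K.w2 (Psi z) * a.2.2.1| ≤ S * (C * (X * (1 + S))) := by
    rw [abs_mul]; gcongr; exact hb.w2
  have e1 : a.1 = p + K.s1 (Psi z) * a.2.1 + K.w1 (Psi z) * a.2.2.1 := by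
    rw [hp]; unfold Coef.h1; ring
  have e2 : a.2.2.2 = q + K.s2 (Psi z) * a.2.1 + K.w2 (Psi z) * a.2.2.1 := by
    rw [hq]; unfold Coef.h2; ring
  have eB : 3 * C * (1 + S) ^ 2 * (gn * B1) * ‖w‖ = 3 * C * (1 + S) ^ 2 * X := by rw [hX]; ring
  rw [eB]
  have hCX : 0 ≤ C * X := by positivity
  have hCXS : 0 ≤ C * X * S := by positivity
  have hCXSS : 0 ≤ C * X * S ^ 2 := by positivity
  have r1 : C * (X * (1 + S)) ≤ 3 * C * (1 + S) ^ 2 * X := by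
    have e3 : 3 * C * (1 + S) ^ 2 * X = 3 * (C * X) + 6 * (C * X * S) + 3 * (C * X * S ^ 2) := by
      ring
    rw [e3]
    linarith only [hCX, hCXS, hCXSS]
  have r2 : C * X + S * (C * (X * (1 + S))) + S * (C * (X * (1 + S))) ≤
      3 * C * (1 + S) ^ 2 * X := by
    have e3 : 3 * C * (1 + S) ^ 2 * X = 3 * (C * X) + 6 * (C * X * S) + 3 * (C * X * S ^ 2) := by
      ring
    rw [e3]
    linarith only [hCX, hCXS, hCXSS]
  rw [P354.norm_P4_le]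
  refine ⟨?_, a2.trans r1, a3.trans r1, ?_⟩
  · rw [e1]
    refine le_trans ?_ r2
    exact (abs_add_three _ _ _).trans (by gcongr)
  · rw [e2]
    refine le_trans ?_ r2
    exact (abs_add_three _ _ _).trans (by gcongr)

end

end Vale.Agent.P354k
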